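import Mathlib.Algebra.Order.Archimedean.Real.Hom
import Mathlib.Algebra.Order.Ring.Star
import Mathlib.Algebra.Order.Star.Real
import Mathlib.Analysis.CStarAlgebra.Classes
import Mathlib.Analysis.Calculus.FDeriv.Symmetric
import Mathlib.Analysis.Complex.BranchLogRoot
import Mathlib.Analysis.Convex.Contractible
import Mathlib.Analysis.SpecialFunctions.Integrals.Basic
import Mathlib.Data.Fin.Tuple.Sort
import Mathlib.Data.Int.CardIntervalMod
import Mathlib.Data.Int.Star
import Mathlib.Geometry.Manifold.SmoothApprox
import Mathlib.LinearAlgebra.Complex.FiniteDimensional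
import Mathlib.MeasureTheory.Integral.Layercake
import Mathlib.Order.CompletePartialOrder
import Mathlib.RingTheory.Flat.FaithfullyFlat.Algebra
import Mathlib.RingTheory.Flat.TorsionFree
import Mathlib.RingTheory.SimpleRing.Principal
import Mathlib.Tactic
import Mathlib.Topology.Separation.CompletelyRegular

/-! The part of Mathlib that the development of this folder uses. -/
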