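import Mathlib
open Complex
open scoped ContDiff

namespace Vale.Agent.P209

/-- two-dimensional form -/
def om1 (v w : ℂ) : ℝ := v.re * w.im - v.im * w.re

/-- area preserving smooth injective map of the plane -/
structure Sympl1 (f : ℂ → ℂ) : Prop where
  smooth : ContDiff ℝ ∞ f
  inj : Function.Injective f
  sympl : ∀ z v w, om1 (fderiv ℝ f z v) (fderiv ℝ f z w) = om1 v w

theorem Sympl1.id : Sympl1 (fun z => z) where
  smooth := contDiff_id
  inj := fun _ _ h => h
  sympl := by intro z v w; simp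

theorem Sympl1.comp {f g : ℂ → ℂ} (hf : Sympl1 f) (hg : Sympl1 g) : Sympl1 (fun z => f (g z)) where
  smooth := hf.smooth.comp hg.smooth
  inj := hf.inj.comp hg.inj
  sympl := by
    intro z v w
    have h1 : DifferentiableAt ℝ f (g z) := hf.smooth.contDiffAt.differentiableAt (by simp)
    have h2 : DifferentiableAt ℝ g z := hg.smooth.contDiffAt.differentiableAt (by simp)
    have : fderiv ℝ (fun z => f (g z)) z = (fderiv ℝ f (g z)).comp (fderiv ℝ g z) :=
      fderiv_comp z h1 h2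
    rw [this]
    simp only [ContinuousLinearMap.comp_apply]
    rw [hf.sympl, hg.sympl]

/-- translations are symplectic -/
theorem Sympl1.add_const (c : ℂ) : Sympl1 (fun z => z + c) where
  smooth := contDiff_id.add contDiff_const
  inj := fun _ _ h => add_right_cancel h
  sympl := by intro z v w; simp

/-- rotation angle as function of s = |z-c|^2/rho^2. -/
noncomputable def ang (s : ℝ) : ℝ := Real.pi * Real.smoothTransition (2 - 2 * s)

theorem ang_contDiff : ContDiff ℝ ∞ ang := by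
  unfold ang
  exact contDiff_const.mul (Real.smoothTransition.contDiff.comp (by fun_prop))

theorem ang_of_le {s : ℝ} (h : s ≤ 1 / 2) : ang s = Real.pi := by
  unfold ang
  rw [Real.smoothTransition.one_of_one_le (by linarith)]
  ring

theorem ang_of_ge {s : ℝ} (h : 1 ≤ s) : ang s = 0 := by
  unfold ang
  rw [Real.smoothTransition.zero_of_nonpos (by linarith)]
  ring

/-- twist map around the origin -/
noncomputable def tw (ρ : ℝ) (z : ℂ) : ℂ := exp (((ang (normSq z / ρ ^ 2) : ℝ) : ℂ) * I) * z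

theorem tw_norm (ρ : ℝ) (z : ℂ) : ‖tw ρ z‖ = ‖z‖ := by
  unfold tw
  rw [norm_mul, Complex.norm_exp_ofReal_mul_I, one_mul]

theorem tw_inj (ρ : ℝ) : Function.Injective (tw ρ) := by
  intro z w h
  have hn : ‖z‖ = ‖w‖ := by rw [← tw_norm ρ z, ← tw_norm ρ w, h]
  have hs : normSq z = normSq w := by
    rw [Complex.normSq_eq_norm_sq, Complex.normSq_eq_norm_sq, hn]
  unfold tw at h
  rw [hs] at h
  exact mul_left_cancel₀ (Complex.exp_ne_zero _) h

theorem normSq_contDiff : ContDiff ℝ ∞ (fun z : ℂ => normSq z) := by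
  have : (fun z : ℂ => normSq z) = fun z : ℂ => z.re * z.re + z.im * z.im := by
    funext z; rw [Complex.normSq_apply]
  rw [this]
  have hre : ContDiff ℝ ∞ (fun z : ℂ => z.re) := Complex.reCLM.contDiff
  have him : ContDiff ℝ ∞ (fun z : ℂ => z.im) := Complex.imCLM.contDiff
  exact (hre.mul hre).add (him.mul him)

theorem tw_smooth (ρ : ℝ) : ContDiff ℝ ∞ (tw ρ) := by
  have h1 : ContDiff ℝ ∞ (fun z : ℂ => ang (normSq z / ρ ^ 2)) :=
    ang_contDiff.comp (normSq_contDiff.div_const _)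
  have h2 : ContDiff ℝ ∞ (fun z : ℂ => ((ang (normSq z / ρ ^ 2) : ℝ) : ℂ)) :=
    Complex.ofRealCLM.contDiff.comp h1
  have h3 : ContDiff ℝ ∞ (fun z : ℂ => exp (((ang (normSq z / ρ ^ 2) : ℝ) : ℂ) * I)) :=
    Complex.contDiff_exp.comp (h2.mul contDiff_const)
  exact h3.mul contDiff_id

theorem om1_rot (e v w : ℂ) : om1 (e * v) (e * w) = normSq e * om1 v w := by
  unfold om1
  simp only [Complex.mul_re, Complex.mul_im, Complex.normSq_apply]
  ring

theorem rot_fderiv {φ : ℂ → ℝ} {φ' : ℂ →L[ℝ] ℝ} {z : ℂ} (h : HasFDerivAt φ φ' z) (v : ℂ) :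
    fderiv ℝ (fun z => exp ((φ z : ℂ) * I) * z) z v =
      exp ((φ z : ℂ) * I) * (v + (φ' v : ℂ) * (I * z)) := by
  have h1 : HasFDerivAt (fun z => ((φ z : ℝ) : ℂ)) (Complex.ofRealCLM.comp φ') z :=
    Complex.ofRealCLM.hasFDerivAt.comp z h
  have h2 := (h1.mul_const I).cexp
  have h3 := h2.mul (hasFDerivAt_id (𝕜 := ℝ) z)
  have h4 : HasFDerivAt (fun z => exp ((φ z : ℂ) * I) * z) _ z := h3
  rw [h4.fderiv]
  simp
  ring

theorem rot_sympl {φ : ℂ → ℝ} {φ' : ℂ →L[ℝ] ℝ} {z : ℂ} (h : HasFDerivAt φ φ' z) (k : ℝ)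
    (hk : ∀ v, φ' v = k * (z.re * v.re + z.im * v.im)) (v w : ℂ) :
    om1 (fderiv ℝ (fun z => exp ((φ z : ℂ) * I) * z) z v)
      (fderiv ℝ (fun z => exp ((φ z : ℂ) * I) * z) z w) = om1 v w := by
  rw [rot_fderiv h, rot_fderiv h, om1_rot, hk, hk, Complex.normSq_eq_norm_sq,
    Complex.norm_exp_ofReal_mul_I]
  unfold om1
  simp
  ring

theorem normSq_hasFDerivAt (z : ℂ) :
    HasFDerivAt (fun z : ℂ => normSq z)
      ((2 * z.re) • Complex.reCLM + (2 * z.im) • Complex.imCLM) z := by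
  have : (fun z : ℂ => normSq z) = fun z : ℂ => z.re * z.re + z.im * z.im := by
    funext z; rw [Complex.normSq_apply]
  rw [this]
  have hre : HasFDerivAt (fun z : ℂ => z.re) Complex.reCLM z := Complex.reCLM.hasFDerivAt
  have him : HasFDerivAt (fun z : ℂ => z.im) Complex.imCLM z := Complex.imCLM.hasFDerivAt
  refine ((hre.mul hre).add (him.mul him)).congr_fderiv ?_
  ext
  simp
  ring

theorem tw_sympl (ρ : ℝ) : Sympl1 (tw ρ) where
  smooth := tw_smooth ρ
  inj := tw_inj ρ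
  sympl := by
    intro z v w
    have ha : HasDerivAt ang (deriv ang (normSq z / ρ ^ 2)) (normSq z / ρ ^ 2) :=
      (ang_contDiff.differentiable (by simp) _).hasDerivAt
    have h1 : HasFDerivAt (fun z : ℂ => normSq z / ρ ^ 2)
        ((ρ ^ 2)⁻¹ • ((2 * z.re) • Complex.reCLM + (2 * z.im) • Complex.imCLM)) z := by
      have := (normSq_hasFDerivAt z).mul_const (ρ ^ 2)⁻¹
      simpa [div_eq_mul_inv] using this
    have h2 := ha.comp_hasFDerivAt z h1
    have h3 : HasFDerivAt (fun z : ℂ => ang (normSq z / ρ ^ 2)) _ z := h2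
    refine rot_sympl h3 (deriv ang (normSq z / ρ ^ 2) * (ρ ^ 2)⁻¹ * 2) ?_ v w
    intro v
    simp
    ring

/-- The twist map with centre `c`. -/
noncomputable def twc (c : ℂ) (ρ : ℝ) (z : ℂ) : ℂ := tw ρ (z + (-c)) + c

theorem twc_sympl (c : ℂ) (ρ : ℝ) : Sympl1 (twc c ρ) :=
  (Sympl1.add_const c).comp ((tw_sympl ρ).comp (Sympl1.add_const (-c)))

theorem twc_dist (c : ℂ) (ρ : ℝ) (z : ℂ) : ‖twc c ρ z - c‖ = ‖z - c‖ := by
  unfold twc
  rw [add_sub_cancel_right, tw_norm, sub_eq_add_neg]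

theorem twc_of_ge {c : ℂ} {ρ : ℝ} (hρ : 0 < ρ) {z : ℂ} (h : ρ ≤ ‖z - c‖) : twc c ρ z = z := by
  unfold twc tw
  rw [ang_of_ge]
  · simp
  · rw [← sub_eq_add_neg, Complex.normSq_eq_norm_sq, one_le_div (by positivity)]
    gcongr

theorem twc_swap {c : ℂ} {ρ : ℝ} (hρ : 0 < ρ) {z : ℂ} (h : 2 * ‖z - c‖ ≤ ρ) :
    twc c ρ z = 2 * c - z := by
  unfold twc tw
  rw [ang_of_le]
  · rw [Complex.exp_pi_mul_I]
    ring
  · rw [← sub_eq_add_neg, Complex.normSq_eq_norm_sq, div_le_div_iff₀ (by positivity) (by norm_num)]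
    have h0 : 0 ≤ ‖z - c‖ := norm_nonneg _
    nlinarith

/-- Pushing the origin outwards: after `j` steps. -/
theorem push (ρ : ℝ) (hρ : 0 < ρ) (j : ℕ) :
    ∃ τ : ℂ → ℂ, Sympl1 τ ∧ (∀ z, ‖τ z‖ ≤ ‖z‖ + 2 * ρ) ∧
      (∀ z, ‖τ z‖ ≤ max ‖z‖ ((j + 1 / 2) * ρ)) ∧ τ ((j * ρ : ℝ) : ℂ) = 0 := by
  induction j with
  | zero =>
    refine ⟨fun z => z, Sympl1.id, ?_, ?_, ?_⟩
    · intro z; linarith
    · intro z; exact le_max_left _ _
    · simp
  | succ j ih =>
    obtain ⟨τ, h1, h2, h3, h4⟩ := ih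
    set c : ℂ := (((j + 1 / 2) * ρ : ℝ) : ℂ) with hc
    have hcn : ‖c‖ = (j + 1 / 2) * ρ := by
      rw [hc, Complex.norm_real, Real.norm_of_nonneg (by positivity)]
    refine ⟨fun z => τ (twc c ρ z), h1.comp (twc_sympl c ρ), ?_, ?_, ?_⟩
    · intro z
      show ‖τ (twc c ρ z)‖ ≤ _
      by_cases hz : ρ ≤ ‖z - c‖
      · rw [twc_of_ge hρ hz]; exact h2 z
      · push Not at hz
        have h5 : ‖twc c ρ z‖ ≤ (j + 1 / 2) * ρ + ρ := by
          have : twc c ρ z = (twc c ρ z - c) + c := by ring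
          rw [this]
          refine (norm_add_le _ _).trans ?_
          rw [twc_dist, hcn]
          linarith
        have h6 : (j + 1 / 2) * ρ - ρ ≤ ‖z‖ := by
          have : c = z - (z - c) := by ring
          have h7 : ‖c‖ ≤ ‖z‖ + ‖z - c‖ := by
            conv_lhs => rw [this]
            exact norm_sub_le _ _
          rw [hcn] at h7
          linarith
        have h8 := h3 (twc c ρ z)
        have h9 : max ‖twc c ρ z‖ ((j + 1 / 2) * ρ) ≤ (j + 1 / 2) * ρ + ρ :=
          max_le h5 (by linarith)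
        linarith
    · intro z
      have hcast : ((j + 1 : ℕ) : ℝ) = (j : ℝ) + 1 := by push_cast; ring
      rw [hcast]
      show ‖τ (twc c ρ z)‖ ≤ _
      by_cases hz : ρ ≤ ‖z - c‖
      · rw [twc_of_ge hρ hz]
        refine (h3 z).trans (max_le_max le_rfl ?_)
        nlinarith
      · push Not at hz
        have h5 : ‖twc c ρ z‖ ≤ (j + 1 / 2) * ρ + ρ := by
          have : twc c ρ z = (twc c ρ z - c) + c := by ring
          rw [this]
          refine (norm_add_le _ _).trans ?_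
          rw [twc_dist, hcn]
          linarith
        refine (h3 _).trans ?_
        refine le_trans ?_ (le_max_right _ _)
        refine max_le ?_ ?_
        · linarith
        · nlinarith
    · show τ (twc c ρ _) = 0
      rw [twc_swap hρ]
      · rw [← h4]
        congr 1
        rw [hc]
        push_cast
        ring
      · have : ((((j + 1 : ℕ) : ℝ) * ρ : ℝ) : ℂ) - c = ((ρ / 2 : ℝ) : ℂ) := by
          rw [hc]
          push_cast
          ring
        rw [this, Complex.norm_real, Real.norm_of_nonneg (by positivity)]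
        linarith

/-- For every disc there is a symplectic map of the plane which moves the disc off the origin and
which increases absolute values only slightly. -/
theorem exists_off_origin (r ε : ℝ) (hε : 0 < ε) :
    ∃ τ : ℂ → ℂ, Sympl1 τ ∧ (∀ z, ‖τ z‖ ≤ ‖z‖ + ε) ∧ (∀ z, ‖z‖ ≤ r → τ z ≠ 0) := by
  obtain ⟨j, hj⟩ := exists_nat_gt (r / (ε / 2))
  obtain ⟨τ, h1, h2, -, h4⟩ := push (ε / 2) (by positivity) j
  refine ⟨τ, h1, fun z => by have := h2 z; linarith, ?_⟩
  intro z hz h0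
  have h5 : z = ((j * (ε / 2) : ℝ) : ℂ) := h1.inj (by rw [h0, h4])
  have h6 : ‖z‖ = j * (ε / 2) := by
    rw [h5, Complex.norm_real, Real.norm_of_nonneg (by positivity)]
  have h7 : r < j * (ε / 2) := by
    rwa [div_lt_iff₀ (by positivity)] at hj
  linarith

end Vale.Agent.P209
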