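import Vale.Agent.P209.Defs
import Vale.Agent.P209.Twist
open Complex
open scoped ContDiff

namespace Vale.Agent.P209

theorem omega_nondeg {n : ℕ} (v : Fin n → ℂ) (h : ∀ w : Fin n → ℂ, omega v w = 0) : v = 0 := by
  have h1 := h (fun j => I * v j)
  unfold omega at h1
  have h2 : ∀ j ∈ Finset.univ, 0 ≤ (v j).re * (I * v j).im - (v j).im * (I * v j).re := by
    intro j _
    simp
    nlinarith [sq_nonneg (v j).re, sq_nonneg (v j).im]
  have h3 := (Finset.sum_eq_zero_iff_of_nonneg h2).1 h1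
  funext j
  have h4 := h3 j (Finset.mem_univ j)
  simp at h4
  have h5 : (v j).re = 0 := by nlinarith [sq_nonneg (v j).re, sq_nonneg (v j).im]
  have h6 : (v j).im = 0 := by nlinarith [sq_nonneg (v j).re, sq_nonneg (v j).im]
  exact Complex.ext h5 h6

theorem isOpenEmbedding_of_sympl {n : ℕ} {U : Set (Fin n → ℂ)} (hU : IsOpen U)
    {f : (Fin n → ℂ) → (Fin n → ℂ)} (hf : ContDiffOn ℝ ∞ f U) (hinj : Set.InjOn f U)
    (hs : ∀ z ∈ U, ∀ v w : Fin n → ℂ, omega (fderiv ℝ f z v) (fderiv ℝ f z w) = omega v w) :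
    Topology.IsOpenEmbedding (fun z : U => f z) := by
  refine Topology.IsOpenEmbedding.of_continuous_injective_isOpenMap ?_ ?_ ?_
  · exact continuousOn_iff_continuous_domRestrict.1 hf.continuousOn
  · intro a b hab
    exact Subtype.ext (hinj a.2 b.2 hab)
  · rw [isOpenMap_iff_nhds_le]
    rintro ⟨z, hz⟩
    have hcd : ContDiffAt ℝ ∞ f z := hf.contDiffAt (hU.mem_nhds hz)
    have hstrict : HasStrictFDerivAt f (fderiv ℝ f z) z := hcd.hasStrictFDerivAt (by simp)
    have hker : Function.Injective (fderiv ℝ f z) := by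
      rw [injective_iff_map_eq_zero]
      intro v hv
      refine omega_nondeg v fun w => ?_
      rw [← hs z hz v w, hv]
      simp [omega]
    let e : (Fin n → ℂ) ≃ₗ[ℝ] (Fin n → ℂ) :=
      LinearEquiv.ofInjectiveEndo (fderiv ℝ f z : (Fin n → ℂ) →ₗ[ℝ] (Fin n → ℂ)) hker
    let e' : (Fin n → ℂ) ≃L[ℝ] (Fin n → ℂ) := e.toContinuousLinearEquiv
    have he : (e' : (Fin n → ℂ) →L[ℝ] (Fin n → ℂ)) = fderiv ℝ f z := by
      ext v
      rfl
    rw [← he] at hstrict
    have h1 := hstrict.map_nhds_eq_of_equiv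
    have h2 : Filter.map (fun z : U => f z) (nhds ⟨z, hz⟩) = nhds (f z) := by
      have h3 : (fun z : U => f z) = f ∘ Subtype.val := rfl
      rw [h3, ← Filter.map_map, map_nhds_subtype_coe_eq_nhds hz (hU.mem_nhds hz)]
      exact h1
    exact h2.ge

end Vale.Agent.P209
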