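import Mathlib

namespace Vale.Agent.P209

/-- The open simplex of size `a` in order coordinates. -/
def tri (n : ℕ) (a : ℝ) : Set (Fin n → ℝ) :=
  {y | (∀ i, 0 < y i) ∧ StrictMono y ∧ ∀ i, y i < a}

/-- Permuted translated simplex. -/
def cell {n : ℕ} (σ : Equiv.Perm (Fin n)) (b : Fin n → ℝ) (a : ℝ) : Set (Fin n → ℝ) :=
  {y | (fun i => y (σ i) - b i) ∈ tri n a}

/-- Packings of the simplex of size `R` by permuted translated simplices of sizes `a i`. -/
def TPack (n : ℕ) {ι : Type*} (a : ι → ℝ) (R : ℝ) : Prop :=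
  ∃ (σ : ι → Equiv.Perm (Fin n)) (b : ι → Fin n → ℝ),
    (∀ i, cell (σ i) (b i) (a i) ⊆ tri n R) ∧
    Pairwise (fun i j => Disjoint (cell (σ i) (b i) (a i)) (cell (σ j) (b j) (a j)))

lemma tri_mono {n : ℕ} {a a' : ℝ} (h : a ≤ a') : tri n a ⊆ tri n a' :=
  fun _ hy => ⟨hy.1, hy.2.1, fun i => (hy.2.2 i).trans_le h⟩

lemma cell_mono {n : ℕ} (σ : Equiv.Perm (Fin n)) (b : Fin n → ℝ) {a a' : ℝ} (h : a ≤ a') :
    cell σ b a ⊆ cell σ b a' :=
  fun _ hy => tri_mono h hy

lemma TPack.mono {n : ℕ} {ι : Type*} {a a' : ι → ℝ} {R R' : ℝ} (h : TPack n a R)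
    (ha : ∀ i, a' i ≤ a i) (hR : R ≤ R') : TPack n a' R' := by
  obtain ⟨σ, b, h1, h2⟩ := h
  refine ⟨σ, b, fun i => (cell_mono _ _ (ha i)).trans ((h1 i).trans (tri_mono hR)), ?_⟩
  intro i j hij
  exact (h2 hij).mono (cell_mono _ _ (ha i)) (cell_mono _ _ (ha j))

lemma TPack.comp {n : ℕ} {ι κ : Type*} {a : ι → ℝ} {R : ℝ} (h : TPack n a R)
    {f : κ → ι} (hf : Function.Injective f) : TPack n (fun k => a (f k)) R := by
  obtain ⟨σ, b, h1, h2⟩ := h
  refine ⟨fun k => σ (f k), fun k => b (f k), fun k => h1 _, ?_⟩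
  intro i j hij
  exact h2 (hf.ne hij)

lemma cell_cell {n : ℕ} (σ τ : Equiv.Perm (Fin n)) (b d : Fin n → ℝ) (c : ℝ)
    (y : Fin n → ℝ) :
    y ∈ cell (σ * τ) (fun i => b (τ i) + d i) c ↔ (fun i => y (σ i) - b i) ∈ cell τ d c := by
  unfold cell
  simp only [Set.mem_ofPred_eq, Equiv.Perm.coe_mul, Function.comp_apply]
  have : (fun i => y (σ (τ i)) - (b (τ i) + d i)) = (fun i => y (σ (τ i)) - b (τ i) - d i) := by
    funext i; ring
  rw [this]

lemma TPack.sigma {n : ℕ} {ι : Type*} {κ : ι → Type*} {a : ι → ℝ} {c : ∀ i, κ i → ℝ} {R : ℝ}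
    (h : TPack n a R) (h' : ∀ i, TPack n (c i) (a i)) :
    TPack n (fun p : Σ i, κ i => c p.1 p.2) R := by
  obtain ⟨σ, b, h1, h2⟩ := h
  choose τ d h3 h4 using h'
  refine ⟨fun p => σ p.1 * τ p.1 p.2, fun p i => b p.1 (τ p.1 p.2 i) + d p.1 p.2 i, ?_, ?_⟩
  · rintro ⟨i, k⟩ y hy
    rw [cell_cell] at hy
    exact h1 i (h3 i k hy)
  · rintro ⟨i, k⟩ ⟨j, l⟩ hne
    rw [Set.disjoint_left]
    intro y hy hy'
    rw [cell_cell] at hy hy'
    by_cases hij : i = j
    · subst hij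
      have hkl : k ≠ l := fun h => hne (by rw [h])
      exact Set.disjoint_left.1 (h4 i hkl) hy hy'
    · exact Set.disjoint_left.1 (h2 hij) (h3 i k hy) (h3 j l hy')

lemma tri_scale {n : ℕ} {a c : ℝ} (hc : 0 < c) (y : Fin n → ℝ) :
    (fun i => c * y i) ∈ tri n (c * a) ↔ y ∈ tri n a := by
  unfold tri
  simp only [Set.mem_ofPred_eq]
  refine and_congr ?_ (and_congr ?_ ?_)
  · exact forall_congr' fun i => by simp [hc]
  · constructor
    · intro h i j hij
      exact lt_of_mul_lt_mul_left (h hij) hc.le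
    · intro h i j hij
      exact mul_lt_mul_of_pos_left (h hij) hc
  · exact forall_congr' fun i => by simp [hc]

lemma TPack.scale {n : ℕ} {ι : Type*} {a : ι → ℝ} {R c : ℝ} (hc : 0 < c) (h : TPack n a R) :
    TPack n (fun i => c * a i) (c * R) := by
  obtain ⟨σ, b, h1, h2⟩ := h
  have key : ∀ i y, y ∈ cell (σ i) (fun l => c * b i l) (c * a i) ↔
      (fun l => c⁻¹ * y l) ∈ cell (σ i) (b i) (a i) := by
    intro i y
    unfold cell
    simp only [Set.mem_ofPred_eq]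
    rw [← tri_scale hc (fun l => c⁻¹ * y (σ i l) - b i l)]
    have : (fun l => c * (c⁻¹ * y (σ i l) - b i l)) = fun l => y (σ i l) - c * b i l := by
      funext l; field_simp
    rw [this]
  refine ⟨σ, fun i l => c * b i l, ?_, ?_⟩
  · intro i y hy
    rw [key] at hy
    have := h1 i hy
    rw [← tri_scale hc] at this
    have e : (fun l => c * (c⁻¹ * y l)) = y := by
      funext l; field_simp
    rwa [e] at this
  · intro i j hij
    rw [Set.disjoint_left]
    intro y hy hy'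
    rw [key] at hy hy'
    exact Set.disjoint_left.1 (h2 hij) hy hy'

/-- trivial packing by a single simplex. -/
lemma TPack.single {n : ℕ} {ι : Type*} [Subsingleton ι] {a : ι → ℝ} {R : ℝ}
    (h : ∀ i, a i ≤ R) : TPack n a R := by
  refine ⟨fun _ => 1, fun _ _ => 0, ?_, ?_⟩
  · intro i y hy
    have : y ∈ tri n (a i) := by simpa [cell] using hy
    exact tri_mono (h i) this
  · intro i j hij
    exact absurd (Subsingleton.elim i j) hij

end Vale.Agent.P209
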