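import Vale.Agent.P209.Torus
import Vale.Agent.P209.OpenEmb
import Vale.Agent.P209.Toric
open Complex
open scoped ContDiff

namespace Vale.Agent.P209

/-- product of a plane map -/
def prodMap (n : ℕ) (τ : ℂ → ℂ) (z : Fin n → ℂ) : Fin n → ℂ := fun k => τ (z k)

theorem prodMap_contDiff {n : ℕ} {τ : ℂ → ℂ} (h : Sympl1 τ) : ContDiff ℝ ∞ (prodMap n τ) := by
  rw [contDiff_pi]
  intro k
  exact h.smooth.comp (contDiff_apply ℝ ℂ k)

theorem prodMap_inj {n : ℕ} {τ : ℂ → ℂ} (h : Sympl1 τ) : Function.Injective (prodMap n τ) := by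
  intro z w hzw
  funext k
  exact h.inj (congrFun hzw k)

theorem prodMap_fderiv {n : ℕ} {τ : ℂ → ℂ} (h : Sympl1 τ) (z u : Fin n → ℂ) (k : Fin n) :
    fderiv ℝ (prodMap n τ) z u k = fderiv ℝ τ (z k) (u k) := by
  have hd : DifferentiableAt ℝ (prodMap n τ) z :=
    (prodMap_contDiff h).contDiffAt.differentiableAt (by simp)
  have h1 := (hasFDerivAt_pi'.1 hd.hasFDerivAt) k
  have h2 : HasFDerivAt (fun w : Fin n → ℂ => τ (w k))
      ((fderiv ℝ τ (z k)).comp (ContinuousLinearMap.proj (R := ℝ) k)) z :=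
    HasFDerivAt.comp (g := τ) (f := fun w : Fin n → ℂ => w k) z
      (h.smooth.contDiffAt.differentiableAt (by simp)).hasFDerivAt (hasFDerivAt_apply k z)
  have h3 := h1.unique h2
  have h4 := congrArg (fun L => L u) h3
  exact h4

theorem prodMap_sympl {n : ℕ} {τ : ℂ → ℂ} (h : Sympl1 τ) (z u w : Fin n → ℂ) :
    omega (fderiv ℝ (prodMap n τ) z u) (fderiv ℝ (prodMap n τ) z w) = omega u w := by
  unfold omega
  refine Finset.sum_congr rfl fun k _ => ?_
  rw [prodMap_fderiv h, prodMap_fderiv h]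
  exact h.sympl (z k) (u k) (w k)

/-- Moving a ball off the coordinate hyperplanes. -/
theorem exists_off_axes (n : ℕ) (r a : ℝ) (hr : 0 < r) (hra : r < a) :
    ∃ τ : ℂ → ℂ, Sympl1 τ ∧ ∀ z ∈ closedBall n r,
      (∀ k, τ (z k) ≠ 0) ∧ ∑ k, Real.pi * normSq (τ (z k)) < a := by
  set M := Real.sqrt (r / Real.pi) with hM
  have hM0 : 0 ≤ M := Real.sqrt_nonneg _
  have hpi := Real.pi_pos
  set K := Real.pi * n * (2 * M + 1) + 1 with hK
  have hK0 : 0 < K := by positivity
  set ε := min 1 ((a - r) / (2 * K)) with hε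
  have hε0 : 0 < ε := lt_min one_pos (div_pos (by linarith) (by positivity))
  obtain ⟨τ, h1, h2, h3⟩ := exists_off_origin M ε hε0
  refine ⟨τ, h1, ?_⟩
  intro z hz
  have hz' : Real.pi * ∑ j, ‖z j‖ ^ 2 ≤ r := hz
  have hzk : ∀ k, ‖z k‖ ≤ M := by
    intro k
    rw [hM]
    refine Real.le_sqrt_of_sq_le ?_
    rw [le_div_iff₀ hpi]
    have : ‖z k‖ ^ 2 ≤ ∑ j, ‖z j‖ ^ 2 :=
      Finset.single_le_sum (f := fun j => ‖z j‖ ^ 2) (fun _ _ => by positivity) (Finset.mem_univ k)
    nlinarith
  refine ⟨fun k => h3 _ (hzk k), ?_⟩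
  have hε1 : ε ≤ 1 := min_le_left _ _
  have hε2 : ε * K ≤ (a - r) / 2 := by
    have : ε ≤ (a - r) / (2 * K) := min_le_right _ _
    rw [le_div_iff₀ (by positivity)] at this
    linarith
  have hterm : ∀ k, Real.pi * normSq (τ (z k)) ≤ Real.pi * ‖z k‖ ^ 2 + Real.pi * (ε * (2 * M + 1)) := by
    intro k
    rw [Complex.normSq_eq_norm_sq, ← mul_add]
    refine mul_le_mul_of_nonneg_left ?_ hpi.le
    have h4 := h2 (z k)
    have h5 : ‖τ (z k)‖ ^ 2 ≤ (‖z k‖ + ε) ^ 2 := by
      gcongr
    have h6 := hzk k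
    nlinarith [norm_nonneg (z k)]
  calc ∑ k, Real.pi * normSq (τ (z k))
      ≤ ∑ k, (Real.pi * ‖z k‖ ^ 2 + Real.pi * (ε * (2 * M + 1))) :=
        Finset.sum_le_sum fun k _ => hterm k
    _ = Real.pi * ∑ k, ‖z k‖ ^ 2 + n * (Real.pi * (ε * (2 * M + 1))) := by
        rw [Finset.sum_add_distrib, ← Finset.mul_sum]
        simp
    _ < a := by
        have : n * (Real.pi * (ε * (2 * M + 1))) = ε * (K - 1) := by
          rw [hK]; ring
        rw [this]
        nlinarith

/-- The general embedding: plane map followed by an integral affine map of the torus model. -/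
theorem isSymplecticEmbedding_comp {n : ℕ} {r : ℝ} {τ : ℂ → ℂ} (hτ : Sympl1 τ)
    (A B : Matrix (Fin n) (Fin n) ℤ) (hAB : A.transpose * B = 1) (v : Fin n → ℝ)
    (h : ∀ z ∈ closedBall n r, prodMap n τ z ∈ good A v) :
    IsSymplecticEmbedding r (fun z => Psi A B v (prodMap n τ z)) := by
  have hcd := prodMap_contDiff (n := n) hτ
  have hUo : IsOpen (prodMap n τ ⁻¹' good A v) := (good_isOpen A v).preimage hcd.continuous
  have hsm : ContDiffOn ℝ ∞ (fun z => Psi A B v (prodMap n τ z)) (prodMap n τ ⁻¹' good A v) := by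
    intro z hz
    exact ((Psi_contDiffAt A B v _ hz).comp z hcd.contDiffAt).contDiffWithinAt
  have hinj : Set.InjOn (fun z => Psi A B v (prodMap n τ z)) (prodMap n τ ⁻¹' good A v) := by
    intro z hz w hw hzw
    exact prodMap_inj hτ (Psi_injOn A B hAB v hz hw hzw)
  have hs : ∀ z ∈ prodMap n τ ⁻¹' good A v, ∀ u w : Fin n → ℂ,
      omega (fderiv ℝ (fun z => Psi A B v (prodMap n τ z)) z u)
        (fderiv ℝ (fun z => Psi A B v (prodMap n τ z)) z w) = omega u w := by
    intro z hz u w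
    have h1 : fderiv ℝ (fun z => Psi A B v (prodMap n τ z)) z =
        (fderiv ℝ (Psi A B v) (prodMap n τ z)).comp (fderiv ℝ (prodMap n τ) z) :=
      fderiv_comp z ((Psi_contDiffAt A B v _ hz).differentiableAt (by simp))
        (hcd.contDiffAt.differentiableAt (by simp))
    rw [h1]
    simp only [ContinuousLinearMap.comp_apply]
    rw [Psi_sympl A B hAB v _ hz, prodMap_sympl hτ]
  exact ⟨_, hUo, h, hsm, isOpenEmbedding_of_sympl hUo hsm hinj hs, hs⟩


/-- partial sums, as an integer matrix -/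
def SM (n : ℕ) : Matrix (Fin n) (Fin n) ℤ := fun i k => if k ≤ i then 1 else 0

/-- differences, as an integer matrix -/
def DM (n : ℕ) : Matrix (Fin n) (Fin n) ℤ :=
  fun i k => (if k = i then 1 else 0) - (if (k : ℕ) + 1 = i then 1 else 0)

/-- permutation matrix -/
def PM {n : ℕ} (σ : Equiv.Perm (Fin n)) : Matrix (Fin n) (Fin n) ℤ :=
  fun j k => if σ k = j then 1 else 0

theorem DM_mul_SM (n : ℕ) : DM n * SM n = 1 := by
  ext i k
  rw [Matrix.mul_apply, Matrix.one_apply]
  unfold DM SM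
  simp only [sub_mul, ite_mul, one_mul, zero_mul, Finset.sum_sub_distrib]
  rw [Finset.sum_ite_eq' Finset.univ i]
  simp only [Finset.mem_univ, if_true]
  have h : ∑ j : Fin n, (if (j : ℕ) + 1 = i then (if k ≤ j then (1 : ℤ) else 0) else 0) =
      if k < i then 1 else 0 := by
    by_cases hi : (i : ℕ) = 0
    · rw [Finset.sum_eq_zero]
      · rw [if_neg]
        intro hki
        rw [Fin.lt_def] at hki
        omega
      · intro j _
        rw [if_neg]
        omega
    · have hlt : (i : ℕ) - 1 < n := by omega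
      rw [Finset.sum_eq_single (⟨(i : ℕ) - 1, hlt⟩ : Fin n)]
      · have h1 : ((⟨(i : ℕ) - 1, hlt⟩ : Fin n) : ℕ) + 1 = i := by
          simp; omega
        rw [if_pos h1]
        by_cases hk : k < i
        · rw [if_pos hk, if_pos]
          rw [Fin.lt_def] at hk
          rw [Fin.le_def]
          simp
          omega
        · rw [if_neg hk, if_neg]
          rw [Fin.lt_def] at hk
          rw [Fin.le_def]
          simp
          omega
      · intro j _ hj
        rw [if_neg]
        intro h2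
        apply hj
        ext
        simp
        omega
      · simp
  rw [h]
  by_cases h1 : i = k
  · subst h1; simp
  · rw [if_neg h1]
    by_cases h2 : k < i
    · rw [if_pos h2, if_pos h2.le]; simp
    · rw [if_neg h2, if_neg]
      · simp
      · intro h3
        exact h2 (lt_of_le_of_ne h3 (Ne.symm h1))

theorem SM_mul_DM (n : ℕ) : SM n * DM n = 1 := mul_eq_one_comm.1 (DM_mul_SM n)

theorem PM_tr_mul {n : ℕ} (σ : Equiv.Perm (Fin n)) : (PM σ).transpose * PM σ = 1 := by
  ext i k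
  rw [Matrix.mul_apply, Matrix.one_apply]
  simp only [Matrix.transpose_apply, PM, mul_ite, mul_one, mul_zero]
  rw [Finset.sum_eq_single (σ k)]
  · simp [EmbeddingLike.apply_eq_iff_eq]
  · intro j _ hj
    rw [if_neg (Ne.symm hj)]
  · simp

/-- the integral matrix of the cell map and its inverse transpose -/
def AM {n : ℕ} (σ : Equiv.Perm (Fin n)) : Matrix (Fin n) (Fin n) ℤ := DM n * PM σ * SM n

def BM {n : ℕ} (σ : Equiv.Perm (Fin n)) : Matrix (Fin n) (Fin n) ℤ :=
  (SM n).transpose * PM σ * (DM n).transpose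

theorem AM_tr_mul_BM {n : ℕ} (σ : Equiv.Perm (Fin n)) : (AM σ).transpose * BM σ = 1 := by
  unfold AM BM
  rw [Matrix.transpose_mul, Matrix.transpose_mul]
  calc (SM n).transpose * ((PM σ).transpose * (DM n).transpose) *
        ((SM n).transpose * PM σ * (DM n).transpose)
      = (SM n).transpose * ((PM σ).transpose * ((DM n).transpose * (SM n).transpose) * PM σ) *
        (DM n).transpose := by
        simp only [Matrix.mul_assoc]
    _ = 1 := by
        rw [← Matrix.transpose_mul, SM_mul_DM, Matrix.transpose_one, Matrix.mul_one, PM_tr_mul,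
          Matrix.mul_one, ← Matrix.transpose_mul, DM_mul_SM, Matrix.transpose_one]

/-- partial sums of a real vector -/
def psum {n : ℕ} (x : Fin n → ℝ) (i : Fin n) : ℝ := ∑ k, (SM n i k : ℝ) * x k

theorem psum_eq {n : ℕ} (x : Fin n → ℝ) (i : Fin n) : psum x i = ∑ k ∈ Finset.Iic i, x k := by
  unfold psum SM
  rw [← Finset.sum_filter_add_sum_filter_not Finset.univ (fun k => k ≤ i)]
  rw [Finset.sum_congr rfl (g := fun k => x k), Finset.sum_eq_zero (s := Finset.univ.filter fun k => ¬ k ≤ i)]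
  · rw [add_zero]
    congr 1
    ext k
    simp
  · intro k hk
    simp at hk
    simp [hk]
  · intro k hk
    simp at hk
    simp [hk]


/-- the real matrix of an integer matrix -/
noncomputable def cm {n : ℕ} (M : Matrix (Fin n) (Fin n) ℤ) : Matrix (Fin n) (Fin n) ℝ :=
  (Int.castRingHom ℝ).mapMatrix M

theorem cm_mul {n : ℕ} (M N : Matrix (Fin n) (Fin n) ℤ) : cm (M * N) = cm M * cm N :=
  map_mul _ _ _

theorem cm_one {n : ℕ} : cm (1 : Matrix (Fin n) (Fin n) ℤ) = 1 := map_one _

theorem cm_mulVec {n : ℕ} (M : Matrix (Fin n) (Fin n) ℤ) (x : Fin n → ℝ) (i : Fin n) :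
    (cm M).mulVec x i = ∑ k, (M i k : ℝ) * x k := rfl

/-- translation vector of the cell map -/
noncomputable def tv {n : ℕ} (σ : Equiv.Perm (Fin n)) (b : Fin n → ℝ) : Fin n → ℝ :=
  (cm (DM n * PM σ)).mulVec b

theorem PM_mulVec {n : ℕ} (σ : Equiv.Perm (Fin n)) (y : Fin n → ℝ) (i : Fin n) :
    (cm (PM σ)).mulVec y (σ i) = y i := by
  rw [cm_mulVec]
  rw [Finset.sum_eq_single i]
  · simp [PM]
  · intro k _ hk
    simp [PM, hk]
  · simp

theorem psum_actn {n : ℕ} (σ : Equiv.Perm (Fin n)) (b : Fin n → ℝ) (z : Fin n → ℂ) (i : Fin n) :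
    psum (actn (AM σ) (tv σ b) z) (σ i) = psum (fun k => Real.pi * normSq (z k)) i + b i := by
  have h1 : psum (actn (AM σ) (tv σ b) z) = (cm (SM n)).mulVec ((cm (AM σ)).mulVec
      (fun k => Real.pi * normSq (z k)) + (cm (DM n * PM σ)).mulVec b) := rfl
  have h2 : (cm (SM n)).mulVec ((cm (AM σ)).mulVec
      (fun k => Real.pi * normSq (z k)) + (cm (DM n * PM σ)).mulVec b) =
      (cm (PM σ)).mulVec ((cm (SM n)).mulVec (fun k => Real.pi * normSq (z k)) + b) := by
    rw [Matrix.mulVec_add, Matrix.mulVec_mulVec, Matrix.mulVec_mulVec, ← cm_mul, ← cm_mul,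
      Matrix.mulVec_add, Matrix.mulVec_mulVec, ← cm_mul]
    unfold AM
    rw [← Matrix.mul_assoc, ← Matrix.mul_assoc, SM_mul_DM, Matrix.one_mul]
  rw [h1, h2, PM_mulVec]
  rfl

theorem psum_mem_tri {n : ℕ} {a : ℝ} {x : Fin n → ℝ} (hx : ∀ k, 0 < x k) (hs : ∑ k, x k < a) :
    psum x ∈ tri n a := by
  refine ⟨?_, ?_, ?_⟩
  · intro i
    rw [psum_eq]
    exact Finset.sum_pos (fun k _ => hx k) ⟨i, by simp⟩
  · intro i j hij
    rw [psum_eq, psum_eq]
    refine Finset.sum_lt_sum_of_subset (i := j) ?_ ?_ ?_ (hx j) ?_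
    · intro k hk
      simp at hk ⊢
      exact hk.trans hij.le
    · simp
    · simp [hij]
    · intro k _ _
      exact (hx k).le
  · intro i
    rw [psum_eq]
    refine lt_of_le_of_lt ?_ hs
    exact Finset.sum_le_sum_of_subset_of_nonneg (Finset.subset_univ _) fun k _ _ => (hx k).le

theorem psum_last {n : ℕ} (hn : 0 < n) (x : Fin n → ℝ) : psum x ⟨n - 1, by omega⟩ = ∑ k, x k := by
  rw [psum_eq]
  congr 1
  ext k
  simp
  rw [Fin.le_def]
  simp
  omega

theorem pos_of_psum_mem {n : ℕ} {a : ℝ} {x : Fin n → ℝ} (h : psum x ∈ tri n a) (k : Fin n) :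
    0 < x k := by
  by_cases hk : (k : ℕ) = 0
  · have h1 := h.1 k
    rw [psum_eq] at h1
    have h2 : Finset.Iic k = {k} := by
      ext j
      simp
      constructor
      · intro h3
        rw [Fin.le_def] at h3
        ext
        omega
      · rintro rfl
        exact le_rfl
    rw [h2, Finset.sum_singleton] at h1
    exact h1
  · have hlt : (k : ℕ) - 1 < n := by omega
    have h1 : (⟨(k : ℕ) - 1, hlt⟩ : Fin n) < k := by
      rw [Fin.lt_def]
      simp
      omega
    have h2 := h.2.1 h1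
    rw [psum_eq, psum_eq] at h2
    have h3 : Finset.Iic k = insert k (Finset.Iic (⟨(k : ℕ) - 1, hlt⟩ : Fin n)) := by
      ext j
      rw [Finset.mem_insert, Finset.mem_Iic, Finset.mem_Iic, Fin.le_def, Fin.le_def]
      simp only
      constructor
      · intro h4
        by_cases h5 : j = k
        · exact Or.inl h5
        · right
          have : (j : ℕ) ≠ k := fun h6 => h5 (Fin.ext h6)
          omega
      · rintro (rfl | h4)
        · exact le_rfl
        · omega
    rw [h3, Finset.sum_insert] at h2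
    · linarith
    · rw [Finset.mem_Iic, Fin.le_def]
      simp only
      omega

/-- **Bridge**: a toric packing by simplices gives a symplectic packing by balls. -/
theorem bridge {ι : Type*} {n : ℕ} (hn : 0 < n) {a r : ι → ℝ} {R : ℝ} (h : TPack n a R)
    (hr : ∀ i, 0 < r i) (hra : ∀ i, r i < a i) : Packs (openBall n R) r := by
  obtain ⟨σ, b, hsub, hdisj⟩ := h
  choose τ hτ hτ' using fun i => exists_off_axes n (r i) (a i) (hr i) (hra i)
  have key : ∀ i, ∀ z ∈ closedBall n (r i),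
      psum (actn (AM (σ i)) (tv (σ i) (b i)) (prodMap n (τ i) z)) ∈ cell (σ i) (b i) (a i) := by
    intro i z hz
    show (fun j => _ - _) ∈ tri n (a i)
    simp only [psum_actn, add_sub_cancel_right]
    refine psum_mem_tri (fun k => ?_) (hτ' i z hz).2
    have h1 := (hτ' i z hz).1 k
    have h2 : 0 < normSq (prodMap n (τ i) z k) := by
      rw [Complex.normSq_pos]
      exact h1
    have := Real.pi_pos
    positivity
  have hgood : ∀ i, ∀ z ∈ closedBall n (r i),
      prodMap n (τ i) z ∈ good (AM (σ i)) (tv (σ i) (b i)) := by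
    intro i z hz
    exact ⟨(hτ' i z hz).1, fun j => pos_of_psum_mem (hsub i (key i z hz)) j⟩
  have hval : ∀ i, ∀ z ∈ closedBall n (r i),
      (fun j => Real.pi * ‖Psi (AM (σ i)) (BM (σ i)) (tv (σ i) (b i)) (prodMap n (τ i) z) j‖ ^ 2) =
        actn (AM (σ i)) (tv (σ i) (b i)) (prodMap n (τ i) z) := by
    intro i z hz
    funext j
    exact Psi_norm_sq _ _ _ _ (hgood i z hz) j
  refine ⟨fun i z => Psi (AM (σ i)) (BM (σ i)) (tv (σ i) (b i)) (prodMap n (τ i) z), ?_, ?_, ?_⟩
  · intro i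
    exact isSymplecticEmbedding_comp (hτ i) _ _ (AM_tr_mul_BM (σ i)) _ (hgood i)
  · rintro i _ ⟨z, hz, rfl⟩
    show Real.pi * ∑ j, ‖Psi (AM (σ i)) (BM (σ i)) (tv (σ i) (b i)) (prodMap n (τ i) z) j‖ ^ 2 < R
    rw [Finset.mul_sum]
    have h1 := hval i z hz
    have h2 := (hsub i (key i z hz)).2.2 ⟨n - 1, by omega⟩
    rw [psum_last hn, ← h1] at h2
    exact h2
  · intro i i' hii'
    rw [Set.disjoint_left]
    rintro _ ⟨z, hz, rfl⟩ ⟨z', hz', hzz'⟩
    have h1 := hval i z hz
    have h2 := hval i' z' hz'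
    simp only at hzz'
    have h3 : actn (AM (σ i)) (tv (σ i) (b i)) (prodMap n (τ i) z) =
        actn (AM (σ i')) (tv (σ i') (b i')) (prodMap n (τ i') z') := by
      rw [← h1, ← h2, hzz']
    have h4 := key i z hz
    have h5 := key i' z' hz'
    rw [← h3] at h5
    exact Set.disjoint_left.1 (hdisj hii') h4 h5

end Vale.Agent.P209
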