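import Vale.Agent.P209.MathlibUsed

namespace Vale.Agent.P209

open scoped ContDiff

/-- The standard symplectic form `∑ dx_j ∧ dy_j` on `ℂⁿ` (a constant form, evaluated on `v, w`). -/
def omega {n : ℕ} (v w : Fin n → ℂ) : ℝ :=
  ∑ j, ((v j).re * (w j).im - (v j).im * (w j).re)

/-- The closed ball of capacity `R` in `ℂⁿ`. -/
def closedBall (n : ℕ) (R : ℝ) : Set (Fin n → ℂ) :=
  {z | Real.pi * ∑ j, ‖z j‖ ^ 2 ≤ R}

/-- The open ball of capacity `R` in `ℂⁿ`. -/
def openBall (n : ℕ) (R : ℝ) : Set (Fin n → ℂ) :=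
  {z | Real.pi * ∑ j, ‖z j‖ ^ 2 < R}

/-- `f` is a symplectic embedding of the closed ball of capacity `r` into `ℂⁿ`: on some open
neighbourhood `U` of the ball, `f` is smooth, a homeomorphism onto an open set, and pulls the
standard symplectic form back to itself. -/
def IsSymplecticEmbedding {n : ℕ} (r : ℝ) (f : (Fin n → ℂ) → (Fin n → ℂ)) : Prop :=
  ∃ U : Set (Fin n → ℂ), IsOpen U ∧ closedBall n r ⊆ U ∧ ContDiffOn ℝ ∞ f U ∧
    Topology.IsOpenEmbedding (fun z : U => f z) ∧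
    ∀ z ∈ U, ∀ v w : Fin n → ℂ, omega (fderiv ℝ f z v) (fderiv ℝ f z w) = omega v w

/-- There is a symplectic packing of the set `S ⊆ ℂⁿ` by closed balls of capacities `r i`. -/
def Packs {n : ℕ} {ι : Type*} (S : Set (Fin n → ℂ)) (r : ι → ℝ) : Prop :=
  ∃ f : ι → (Fin n → ℂ) → (Fin n → ℂ),
    (∀ i, IsSymplecticEmbedding (r i) (f i)) ∧
    (∀ i, f i '' closedBall n (r i) ⊆ S) ∧
    Pairwise fun i j => Disjoint (f i '' closedBall n (r i)) (f j '' closedBall n (r j))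

end Vale.Agent.P209
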