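import Mathlib
import Vale.Agent.P209.Toric

namespace Vale.Agent.P209

/-- rank permutation: sorts `w` (ties broken by index). -/
noncomputable def rnk {n m : ℕ} (w : Fin n → Fin m) : Equiv.Perm (Fin n) := (Tuple.sort w)⁻¹

lemma rnk_sort {n m : ℕ} (w : Fin n → Fin m) (j : Fin n) : rnk w (Tuple.sort w j) = j := by
  simp [rnk]

lemma sort_rnk {n m : ℕ} (w : Fin n → Fin m) (j : Fin n) : Tuple.sort w (rnk w j) = j := by
  simp [rnk]

/-- the cell of the word `w` for the intervals `(ℓ c, ℓ c + s)`. -/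
noncomputable def wcell {n m : ℕ} (w : Fin n → Fin m) (ℓ : Fin m → ℝ) (s : ℝ) :
    Set (Fin n → ℝ) := cell (rnk w) (fun i => ℓ (w i)) s

lemma wcell_mem {n m : ℕ} {w : Fin n → Fin m} {ℓ : Fin m → ℝ} {s : ℝ} {y : Fin n → ℝ}
    (hy : y ∈ wcell w ℓ s) (i : Fin n) :
    ℓ (w i) < y (rnk w i) ∧ y (rnk w i) < ℓ (w i) + s := by
  have h0 := hy.1 i
  have h1 := hy.2.2 i
  simp only at h0 h1
  constructor <;> linarith

lemma wcell_mem' {n m : ℕ} {w : Fin n → Fin m} {ℓ : Fin m → ℝ} {s : ℝ} {y : Fin n → ℝ}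
    (hy : y ∈ wcell w ℓ s) (j : Fin n) :
    ℓ (w (Tuple.sort w j)) < y j ∧ y j < ℓ (w (Tuple.sort w j)) + s := by
  have := wcell_mem hy (Tuple.sort w j)
  rwa [rnk_sort] at this

lemma wcell_strictMono {n m : ℕ} {w : Fin n → Fin m} {ℓ : Fin m → ℝ} {s : ℝ}
    (hℓ : ∀ c c', c < c' → ℓ c + s ≤ ℓ c') {y : Fin n → ℝ}
    (hy : y ∈ wcell w ℓ s) : StrictMono y := by
  have hsort := Tuple.eq_sort_iff.1 (rfl : Tuple.sort w = Tuple.sort w)
  intro j j' hjj
  have a := wcell_mem' hy j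
  have a' := wcell_mem' hy j'
  rcases (hsort.1 hjj.le).eq_or_lt with h | h
  · have h' : w (Tuple.sort w j) = w (Tuple.sort w j') := h
    have h2 := hsort.2 j j' hjj h'
    have h3 := hy.2.1 h2
    simp only [rnk_sort] at h3
    rw [h'] at h3
    linarith
  · have := hℓ _ _ h
    simp only [Function.comp_apply] at this
    linarith

lemma wcell_disj {n m : ℕ} {w w' : Fin n → Fin m} (hne : w ≠ w') {ℓ : Fin m → ℝ} {s : ℝ}
    (hℓ : ∀ c c', c < c' → ℓ c + s ≤ ℓ c') :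
    Disjoint (wcell w ℓ s) (wcell w' ℓ s) := by
  rw [Set.disjoint_left]
  intro y hy hy'
  set τ := Tuple.sort w with hτ
  set τ' := Tuple.sort w' with hτ'
  have e1 : ∀ j, w (τ j) = w' (τ' j) := by
    intro j
    have a := wcell_mem' hy j
    have a' := wcell_mem' hy' j
    rcases lt_trichotomy (w (τ j)) (w' (τ' j)) with h | h | h
    · have := hℓ _ _ h
      linarith
    · exact h
    · have := hℓ _ _ h
      linarith
  have q : ∀ i i', i < i' → τ' (τ⁻¹ i) < τ' (τ⁻¹ i') := by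
    intro i i' hii
    have h1 := hy.2.1 hii
    simp only at h1
    have r1 : ∀ i, rnk w i = rnk w' (τ' (τ⁻¹ i)) := by
      intro i
      rw [hτ', rnk_sort]
      rfl
    have r2 : ∀ i, w i = w' (τ' (τ⁻¹ i)) := by
      intro i
      have := e1 (τ⁻¹ i)
      simpa using this
    rw [r1 i, r1 i', r2 i, r2 i'] at h1
    by_contra hcon
    push Not at hcon
    have := (StrictMono.monotone hy'.2.1) hcon
    simp only at this
    linarith
  have e3 : StrictMono (τ' * τ⁻¹ : Equiv.Perm (Fin n)) := by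
    intro i i' hii
    exact q i i' hii
  have e4 : τ' * τ⁻¹ = 1 := (Equiv.Perm.monotone_iff _).1 e3.monotone
  have e5 : τ' = τ := by
    rwa [mul_inv_eq_one] at e4
  apply hne
  funext i
  have := e1 (τ⁻¹ i)
  rw [e5] at this
  simpa using this

/-- Packings inside an arbitrary region. -/
def TPackIn (n : ℕ) {ι : Type*} (a : ι → ℝ) (Ω : Set (Fin n → ℝ)) : Prop :=
  ∃ (σ : ι → Equiv.Perm (Fin n)) (b : ι → Fin n → ℝ),
    (∀ i, cell (σ i) (b i) (a i) ⊆ Ω) ∧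
    Pairwise (fun i j => Disjoint (cell (σ i) (b i) (a i)) (cell (σ j) (b j) (a j)))

lemma tPackIn_tri {n : ℕ} {ι : Type*} {a : ι → ℝ} {R : ℝ} :
    TPackIn n a (tri n R) ↔ TPack n a R := Iff.rfl

lemma TPackIn.mono {n : ℕ} {ι : Type*} {a a' : ι → ℝ} {Ω Ω' : Set (Fin n → ℝ)}
    (h : TPackIn n a Ω) (ha : ∀ i, a' i ≤ a i) (hR : Ω ⊆ Ω') : TPackIn n a' Ω' := by
  obtain ⟨σ, b, h1, h2⟩ := h
  refine ⟨σ, b, fun i => (cell_mono _ _ (ha i)).trans ((h1 i).trans hR), ?_⟩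
  intro i j hij
  exact (h2 hij).mono (cell_mono _ _ (ha i)) (cell_mono _ _ (ha j))

lemma TPackIn.comp {n : ℕ} {ι κ : Type*} {a : ι → ℝ} {Ω : Set (Fin n → ℝ)}
    (h : TPackIn n a Ω) {f : κ → ι} (hf : Function.Injective f) :
    TPackIn n (fun k => a (f k)) Ω := by
  obtain ⟨σ, b, h1, h2⟩ := h
  refine ⟨fun k => σ (f k), fun k => b (f k), fun k => h1 _, ?_⟩
  intro i j hij
  exact h2 (hf.ne hij)

lemma TPackIn.empty {n : ℕ} {ι : Type*} [IsEmpty ι] {a : ι → ℝ} {Ω : Set (Fin n → ℝ)} :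
    TPackIn n a Ω :=
  ⟨fun _ => 1, fun _ _ => 0, fun i => isEmptyElim i, fun i => isEmptyElim i⟩

/-- Union of packings of disjoint regions. -/
lemma TPackIn.sigma {n : ℕ} {ρ : Type*} {κ : ρ → Type*} {c : ∀ r, κ r → ℝ}
    {Ω : ρ → Set (Fin n → ℝ)} {Ω' : Set (Fin n → ℝ)} (hsub : ∀ r, Ω r ⊆ Ω')
    (hdis : Pairwise (fun r r' => Disjoint (Ω r) (Ω r')))
    (h : ∀ r, TPackIn n (c r) (Ω r)) :
    TPackIn n (fun p : Σ r, κ r => c p.1 p.2) Ω' := by
  choose τ d h3 h4 using h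
  refine ⟨fun p => τ p.1 p.2, fun p => d p.1 p.2, ?_, ?_⟩
  · rintro ⟨i, k⟩
    exact (h3 i k).trans (hsub i)
  · rintro ⟨i, k⟩ ⟨j, l⟩ hne
    by_cases hij : i = j
    · subst hij
      have hkl : k ≠ l := fun h => hne (by rw [h])
      exact h4 i hkl
    · exact (hdis hij).mono (h3 i k) (h3 j l)

/-- Packing inside a region of a cell. -/
lemma TPackIn.cell {n : ℕ} {ι : Type*} {a : ι → ℝ} {Ω : Set (Fin n → ℝ)}
    (h : TPackIn n a Ω) (σ : Equiv.Perm (Fin n)) (b : Fin n → ℝ) :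
    TPackIn n a {y | (fun i => y (σ i) - b i) ∈ Ω} := by
  obtain ⟨τ, d, h3, h4⟩ := h
  refine ⟨fun p => σ * τ p, fun p i => b (τ p i) + d p i, ?_, ?_⟩
  · intro k y hy
    rw [cell_cell] at hy
    exact h3 k hy
  · intro k l hkl
    rw [Set.disjoint_left]
    intro y hy hy'
    rw [cell_cell] at hy hy'
    exact Set.disjoint_left.1 (h4 hkl) hy hy'

end Vale.Agent.P209
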