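import Mathlib
import Vale.Agent.P209.Toric

namespace Vale.Agent.P209

/-- rank permutation: sorts `w` (ties broken by index). -/
noncomputable def rk {n m : ℕ} (w : Fin n → Fin m) : Equiv.Perm (Fin n) := (Tuple.sort w)⁻¹

lemma rk_sort {n m : ℕ} (w : Fin n → Fin m) (j : Fin n) : rk w (Tuple.sort w j) = j := by
  simp [rk]

lemma sort_rk {n m : ℕ} (w : Fin n → Fin m) (j : Fin n) : Tuple.sort w (rk w j) = j := by
  simp [rk]

/-- translation vector of the word cell. -/
noncomputable def wb {n m : ℕ} (w : Fin (n + 1) → Fin m) (s D : ℝ) : Fin (n + 1) → ℝ :=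
  fun i => s * ((w i : ℕ) : ℝ) + if rk w i = Fin.last n then D else 0

lemma word_y {n m : ℕ} (w : Fin (n + 1) → Fin m) (s D : ℝ) (y : Fin (n + 1) → ℝ)
    (j : Fin (n + 1)) :
    y j = (y (rk w (Tuple.sort w j)) - wb w s D (Tuple.sort w j)) +
      s * ((w (Tuple.sort w j) : ℕ) : ℝ) + if j = Fin.last n then D else 0 := by
  unfold wb
  rw [rk_sort]; ring

lemma word_cell_sub {n m : ℕ} (w : Fin (n + 1) → Fin m) {s D R : ℝ} (hs : 0 < s) (hD : 0 ≤ D)
    (hR : m * s + D ≤ R) : cell (rk w) (wb w s D) s ⊆ tri (n + 1) R := by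
  intro y hy
  obtain ⟨h0, h1, h2⟩ := hy
  set τ := Tuple.sort w with hτ
  set u : Fin (n + 1) → ℝ := fun i => y (rk w i) - wb w s D i with hu
  have hyj : ∀ j, y j = u (τ j) + s * ((w (τ j) : ℕ) : ℝ) + if j = Fin.last n then D else 0 :=
    fun j => word_y w s D y j
  have hsort := Tuple.eq_sort_iff.1 hτ
  have hw : ∀ i, ((w i : ℕ) : ℝ) + 1 ≤ m := by
    intro i
    have := (w i).2
    exact_mod_cast this
  refine ⟨?_, ?_, ?_⟩
  · intro j
    rw [hyj]
    have a1 : 0 < u (τ j) := h0 _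
    have a2 : 0 ≤ s * ((w (τ j) : ℕ) : ℝ) := by positivity
    split_ifs <;> linarith
  · intro j j' hjj
    rw [hyj, hyj]
    have hjl : j ≠ Fin.last n := (lt_of_lt_of_le hjj (Fin.le_last _)).ne
    rw [if_neg hjl]
    have key : u (τ j) + s * ((w (τ j) : ℕ) : ℝ) < u (τ j') + s * ((w (τ j') : ℕ) : ℝ) := by
      rcases (hsort.1 hjj.le).eq_or_lt with h | h
      · have h' : w (τ j) = w (τ j') := h
        have := hsort.2 j j' hjj h'
        have := h1 this
        rw [h']
        linarith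
      · have h' : (w (τ j) : ℕ) < (w (τ j') : ℕ) := h
        have h'' : ((w (τ j) : ℕ) : ℝ) + 1 ≤ ((w (τ j') : ℕ) : ℝ) := by exact_mod_cast h'
        have a1 : u (τ j) < s := h2 _
        have a2 : 0 < u (τ j') := h0 _
        nlinarith
    split_ifs <;> linarith
  · intro j
    rw [hyj]
    have a1 : u (τ j) < s := h2 _
    have a2 := hw (τ j)
    have a3 : s * (((w (τ j) : ℕ) : ℝ) + 1) ≤ s * m := mul_le_mul_of_nonneg_left a2 hs.le
    split_ifs <;> nlinarith

lemma word_cell_disj {n m : ℕ} {w w' : Fin (n + 1) → Fin m} (hne : w ≠ w') {s D : ℝ}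
    (hs : 0 < s) : Disjoint (cell (rk w) (wb w s D) s) (cell (rk w') (wb w' s D) s) := by
  rw [Set.disjoint_left]
  intro y hy hy'
  obtain ⟨h0, h1, h2⟩ := hy
  obtain ⟨h0', h1', h2'⟩ := hy'
  set τ := Tuple.sort w with hτ
  set τ' := Tuple.sort w' with hτ'
  set u : Fin (n + 1) → ℝ := fun i => y (rk w i) - wb w s D i with hu
  set u' : Fin (n + 1) → ℝ := fun i => y (rk w' i) - wb w' s D i with hu'
  have hyj : ∀ j, y j = u (τ j) + s * ((w (τ j) : ℕ) : ℝ) + if j = Fin.last n then D else 0 :=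
    fun j => word_y w s D y j
  have hyj' : ∀ j, y j = u' (τ' j) + s * ((w' (τ' j) : ℕ) : ℝ) + if j = Fin.last n then D else 0 :=
    fun j => word_y w' s D y j
  have e : ∀ j, u (τ j) + s * ((w (τ j) : ℕ) : ℝ) = u' (τ' j) + s * ((w' (τ' j) : ℕ) : ℝ) := by
    intro j
    have := (hyj j).symm.trans (hyj' j)
    linarith
  have e1 : ∀ j, (w (τ j) : ℕ) = (w' (τ' j) : ℕ) := by
    intro j
    have a0 : 0 < u (τ j) := h0 _
    have a1 : u (τ j) < s := h2 _
    have b0 : 0 < u' (τ' j) := h0' _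
    have b1 : u' (τ' j) < s := h2' _
    rcases lt_trichotomy (w (τ j) : ℕ) (w' (τ' j) : ℕ) with h | h | h
    · exfalso
      have h'' : ((w (τ j) : ℕ) : ℝ) + 1 ≤ ((w' (τ' j) : ℕ) : ℝ) := by exact_mod_cast h
      have := e j
      nlinarith
    · exact h
    · exfalso
      have h'' : ((w' (τ' j) : ℕ) : ℝ) + 1 ≤ ((w (τ j) : ℕ) : ℝ) := by exact_mod_cast h
      have := e j
      nlinarith
  have e2 : ∀ j, u (τ j) = u' (τ' j) := by
    intro j
    have := e j
    rw [e1 j] at this
    linarith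
  -- the permutation τ' * τ⁻¹ is strictly monotone
  have e3 : StrictMono (τ' * τ⁻¹ : Equiv.Perm (Fin (n + 1))) := by
    intro i i' hii
    have := h1 hii
    have q : ∀ i, u i = u' ((τ' * τ⁻¹ : Equiv.Perm (Fin (n + 1))) i) := by
      intro i
      have := e2 (τ⁻¹ i)
      simpa using this
    have : u i < u i' := h1 hii
    rw [q, q] at this
    exact (StrictMono.lt_iff_lt h1').1 this
  have e4 : τ' * τ⁻¹ = 1 := (Equiv.Perm.monotone_iff _).1 e3.monotone
  have e5 : τ' = τ := by
    rwa [mul_inv_eq_one] at e4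
  apply hne
  funext i
  have := e1 (τ⁻¹ i)
  rw [e5] at this
  apply Fin.ext
  simpa using this

lemma big_disj {n m : ℕ} (w : Fin (n + 1) → Fin m) {j : ℕ} (hw : ∃ i, j ≤ (w i : ℕ)) {s R : ℝ}
    (hs : 0 < s) :
    Disjoint (tri (n + 1) (R - (m - j) * s)) (cell (rk w) (wb w s (R - m * s)) s) := by
  rw [Set.disjoint_left]
  intro y hy hy'
  obtain ⟨h0, h1, h2⟩ := hy'
  have h3 := hy.2.2 (Fin.last n)
  have h4 := word_y w s (R - m * s) y (Fin.last n)
  rw [if_pos rfl] at h4
  have h5 : 0 < y (rk w (Tuple.sort w (Fin.last n))) -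
      wb w s (R - m * s) (Tuple.sort w (Fin.last n)) := h0 _
  obtain ⟨i, hi⟩ := hw
  have h6 : j ≤ (w (Tuple.sort w (Fin.last n)) : ℕ) := by
    have hm := Tuple.monotone_sort w (Fin.le_last (rk w i))
    simp only [Function.comp_apply, sort_rk] at hm
    exact hi.trans hm
  have h7 : (j : ℝ) ≤ ((w (Tuple.sort w (Fin.last n)) : ℕ) : ℝ) := by exact_mod_cast h6
  nlinarith

/-- Packing of a simplex of size `R` by one simplex of size `R - (m - j) s` and the
`m ^ n - j ^ n` simplices of size `s` indexed by words. -/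
lemma TPack.words {n : ℕ} (m j : ℕ) (hj : j ≤ m) {s R : ℝ} (hs : 0 < s) (hR : m * s ≤ R) :
    TPack (n + 1) (fun o : Option {w : Fin (n + 1) → Fin m // ∃ i, j ≤ (w i : ℕ)} =>
      o.elim (R - (m - j) * s) (fun _ => s)) R := by
  refine ⟨fun o => o.elim 1 (fun w => rk w.1),
    fun o => o.elim 0 (fun w => wb w.1 s (R - m * s)), ?_, ?_⟩
  · rintro (_ | w)
    · intro y hy
      have hy' : y ∈ tri (n + 1) (R - (m - j) * s) := by simpa [cell] using hy
      refine tri_mono ?_ hy'
      have : (j : ℝ) ≤ m := by exact_mod_cast hj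
      nlinarith
    · exact word_cell_sub w.1 hs (by linarith) (by linarith)
  · have e : ∀ a : ℝ, cell (1 : Equiv.Perm (Fin (n + 1))) (0 : Fin (n + 1) → ℝ) a = tri (n + 1) a := by
      intro a
      ext y
      simp [cell]
    rintro (_ | w) (_ | w') hne
    · exact absurd rfl hne
    · simp only [Option.elim_none, Option.elim_some, e]
      exact big_disj w'.1 w'.2 hs
    · simp only [Option.elim_none, Option.elim_some, e]
      exact (big_disj w.1 w.2 hs).symm
    · simp only [Option.elim_some]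
      apply word_cell_disj _ hs
      intro h
      apply hne
      rw [Subtype.ext h]

/-- The `m ^ n` equal simplices. -/
lemma TPack.words_all {n : ℕ} (m : ℕ) {s R : ℝ} (hs : 0 < s) (hR : m * s ≤ R) :
    TPack (n + 1) (fun _ : Fin (n + 1) → Fin m => s) R := by
  have h := TPack.words (n := n) m 0 (Nat.zero_le _) hs hR
  have := h.comp (f := fun w : Fin (n + 1) → Fin m =>
    (some ⟨w, 0, Nat.zero_le _⟩ : Option {w : Fin (n + 1) → Fin m // ∃ i, 0 ≤ (w i : ℕ)}))
    (by intro a b hab; simpa using hab)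
  simpa using this

lemma card_words (n m j : ℕ) (hj : j ≤ m) :
    Fintype.card {w : Fin n → Fin m // ∃ i, j ≤ (w i : ℕ)} = m ^ n - j ^ n := by
  classical
  have h1 : Fintype.card {w : Fin n → Fin m // ¬ ∃ i, j ≤ (w i : ℕ)} = j ^ n := by
    have : Fintype.card (Fin n → Fin j) = j ^ n := by simp
    rw [← this]
    apply Fintype.card_congr
    refine ⟨fun w i => ⟨(w.1 i : ℕ), ?_⟩, fun w => ⟨fun i => Fin.castLE hj (w i), ?_⟩, ?_, ?_⟩
    · have := w.2
      push_neg at this
      exact this i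
    · push_neg
      intro i
      exact (w i).2
    · intro w
      apply Subtype.ext
      funext i
      rfl
    · intro w
      funext i
      rfl
  have h2 := Fintype.card_subtype_compl (fun w : Fin n → Fin m => ∃ i, j ≤ (w i : ℕ))
  rw [h1] at h2
  have h3 : Fintype.card (Fin n → Fin m) = m ^ n := by simp
  rw [h3] at h2
  have h4 : Fintype.card {w : Fin n → Fin m // ∃ i, j ≤ (w i : ℕ)} ≤ m ^ n := by
    rw [← h3]; exact Fintype.card_subtype_le _
  omega

end Vale.Agent.P209
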