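import Vale.Agent.P209.Bridge
import Vale.Agent.P209.Words

namespace Vale.Agent.P209

/-- `TPack` for at most `2^(n+1)` simplices of dimension `n+1` satisfying the two-ball condition. -/
theorem tpack_small (n k : ℕ) (R : ℝ) (r : Fin k → ℝ) (hk : k ≤ 2 ^ (n + 1)) (hR : 0 < R)
    (hr : ∀ i, 0 < r i) (hvol : ∑ i, r i ^ (n + 1) < R ^ (n + 1))
    (hpair : ∀ i j, i < j → r i + r j < R) :
    ∃ a : Fin k → ℝ, (∀ i, r i < a i) ∧ TPack (n + 1) a R := by
  have hone : ∀ i, r i < R := by
    intro i
    have h1 : r i ^ (n + 1) ≤ ∑ i, r i ^ (n + 1) :=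
      Finset.single_le_sum (f := fun i => r i ^ (n + 1)) (fun j _ => by have := hr j; positivity)
        (Finset.mem_univ i)
    exact lt_of_pow_lt_pow_left₀ (n + 1) hR.le (h1.trans_lt hvol)
  have hpair' : ∀ i j, i ≠ j → r i + r j < R := by
    intro i j hij
    rcases lt_or_gt_of_ne hij with h | h
    · exact hpair i j h
    · rw [add_comm]; exact hpair j i h
  by_cases hbig : ∀ i, r i < R / 2
  · -- all balls are smaller than half
    have hcard : Fintype.card (Fin k) ≤ Fintype.card (Fin (n + 1) → Fin 2) := by simpa using hk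
    obtain ⟨e⟩ := Function.Embedding.nonempty_of_card_le hcard
    refine ⟨fun _ => R / 2, hbig, ?_⟩
    have h1 := TPack.words_all (n := n) 2 (s := R / 2) (R := R) (by positivity)
      (by push_cast; linarith)
    exact h1.comp e.injective
  · push Not at hbig
    obtain ⟨i0, hi0⟩ := hbig
    -- choose the common size of the other simplices
    obtain ⟨s, hs1, hs2, hs3⟩ : ∃ s : ℝ, (∀ i, i ≠ i0 → r i < s) ∧ 0 < s ∧ s < R - r i0 := by
      have hfin : ∀ t : Finset (Fin k), i0 ∉ t → ∃ s : ℝ, (∀ i ∈ t, r i < s) ∧ 0 < s ∧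
          s < R - r i0 := by
        intro t ht
        by_cases hne : t.Nonempty
        · obtain ⟨j, hj, hj'⟩ := t.exists_max_image r hne
          have h1 : j ≠ i0 := fun h => ht (h ▸ hj)
          have h2 := hpair' j i0 h1
          have h3 := hr j
          refine ⟨(r j + (R - r i0)) / 2, ?_, ?_, ?_⟩
          · intro i hi
            have := hj' i hi
            linarith
          · linarith
          · linarith
        · rw [Finset.not_nonempty_iff_eq_empty] at hne
          subst hne
          have h2 := hone i0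
          exact ⟨(R - r i0) / 2, by simp, by linarith, by linarith⟩
      obtain ⟨s, h1, h2, h3⟩ := hfin (Finset.univ.erase i0) (by simp)
      exact ⟨s, fun i hi => h1 i (by simp [hi]), h2, h3⟩
    have hcard : Fintype.card {i : Fin k // i ≠ i0} ≤
        Fintype.card {w : Fin (n + 1) → Fin 2 // ∃ i, 1 ≤ (w i : ℕ)} := by
      rw [card_words (n + 1) 2 1 (by norm_num)]
      have h1 : Fintype.card {i : Fin k // i ≠ i0} = k - 1 := by
        rw [Fintype.card_subtype_compl]
        simp
      rw [h1, one_pow]
      exact Nat.sub_le_sub_right hk 1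
    obtain ⟨e⟩ := Function.Embedding.nonempty_of_card_le hcard
    have hw := TPack.words (n := n) 2 1 (by norm_num) hs2 (R := R) (by push_cast; linarith)
    let f : Fin k → Option {w : Fin (n + 1) → Fin 2 // ∃ i, 1 ≤ (w i : ℕ)} :=
      fun i => if h : i = i0 then none else some (e ⟨i, h⟩)
    have hf : Function.Injective f := by
      intro i j hij
      by_cases hi : i = i0
      · by_cases hj : j = i0
        · rw [hi, hj]
        · simp [f, hi, hj] at hij
      · by_cases hj : j = i0
        · simp [f, hi, hj] at hij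
        · have h1 : e ⟨i, hi⟩ = e ⟨j, hj⟩ := by simpa [f, hi, hj] using hij
          simpa using e.injective h1
    refine ⟨fun i => (f i).elim (R - (2 - 1) * s) (fun _ => s), ?_, ?_⟩
    · intro i
      by_cases hi : i = i0
      · subst hi
        simp [f]
        linarith
      · simp [f, hi]
        exact hs1 i hi
    · have := hw.comp hf
      simpa using this

/-- The sufficiency half of the Siegel-Yao conjecture for at most `2^n` balls. -/
theorem packs_small (n k : ℕ) (hn : 1 ≤ n) (hk : k ≤ 2 ^ n) (R : ℝ) (r : Fin k → ℝ) (hR : 0 < R)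
    (hr : ∀ i, 0 < r i) (hvol : ∑ i, r i ^ n < R ^ n)
    (hpair : ∀ i j, i < j → r i + r j < R) : Packs (openBall n R) r := by
  obtain ⟨n, rfl⟩ : ∃ m, n = m + 1 := ⟨n - 1, by omega⟩
  obtain ⟨a, ha, hT⟩ := tpack_small n k R r hk hR hr hvol hpair
  exact bridge (Nat.succ_pos n) hT hr ha

end Vale.Agent.P209
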