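import Vale.Agent.P209.Defs
import Vale.Agent.P209.Twist
open Complex
open scoped ContDiff

namespace Vale.Agent.P209

noncomputable def actn {n : ℕ} (A : Matrix (Fin n) (Fin n) ℤ) (v : Fin n → ℝ) (z : Fin n → ℂ) (j : Fin n) : ℝ :=
  ∑ k, (A j k : ℝ) * (Real.pi * normSq (z k)) + v j

noncomputable def Psi {n : ℕ} (A B : Matrix (Fin n) (Fin n) ℤ) (v : Fin n → ℝ) (z : Fin n → ℂ) :
    Fin n → ℂ :=
  fun j => ((Real.sqrt (actn A v z j / Real.pi) : ℝ) : ℂ) * ∏ k, (z k / ‖z k‖) ^ (B j k)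

theorem unit_eq (w z : ℂ) (hw : w ≠ 0) (hz : z ≠ 0) :
    w / ‖w‖ = (z / ‖z‖) * exp (((log (w / z)).im : ℂ) * I) := by
  have h1 : (w / z) ≠ 0 := div_ne_zero hw hz
  have h2 : exp (((log (w / z)).im : ℂ) * I) = (w / z) / ‖w / z‖ := by
    rw [eq_div_iff (by simpa using ⟨hw, hz⟩), Complex.log_im, mul_comm]
    exact Complex.norm_mul_exp_arg_mul_I _
  rw [h2]
  rw [norm_div]
  have : (‖w‖ : ℂ) ≠ 0 := by simpa using hw
  have : (‖z‖ : ℂ) ≠ 0 := by simpa using hz
  push_cast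
  field_simp

/-- local angle sum -/
noncomputable def angs {n : ℕ} (B : Matrix (Fin n) (Fin n) ℤ) (z0 z : Fin n → ℂ) (j : Fin n) : ℝ :=
  ∑ k, (B j k : ℝ) * (log (z k / z0 k)).im

theorem Psi_eq {n : ℕ} (A B : Matrix (Fin n) (Fin n) ℤ) (v : Fin n → ℝ) (z z0 : Fin n → ℂ)
    (hz : ∀ k, z k ≠ 0) (hz0 : ∀ k, z0 k ≠ 0) (j : Fin n) :
    Psi A B v z j = (∏ k, (z0 k / ‖z0 k‖) ^ (B j k)) *
      (((Real.sqrt (actn A v z j / Real.pi) : ℝ) : ℂ) * exp ((angs B z0 z j : ℂ) * I)) := by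
  have h : ∏ k, (z k / ‖z k‖) ^ (B j k) =
      (∏ k, (z0 k / ‖z0 k‖) ^ (B j k)) * exp ((angs B z0 z j : ℂ) * I) := by
    unfold angs
    push_cast
    rw [Finset.sum_mul, Complex.exp_sum, ← Finset.prod_mul_distrib]
    refine Finset.prod_congr rfl fun k _ => ?_
    rw [unit_eq (z k) (z0 k) (hz k) (hz0 k), mul_zpow, ← Complex.exp_int_mul]
    congr 2
    ring
  unfold Psi
  rw [h]
  ring

theorem arg_hasFDerivAt (z : ℂ) (hz : z ≠ 0) :
    HasFDerivAt (fun w : ℂ => (log (w / z)).im) 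
      (Complex.imCLM.comp ((z⁻¹ : ℂ) • (ContinuousLinearMap.id ℝ ℂ))) z := by
  have h1 : HasDerivAt (fun w : ℂ => log (w / z)) (z⁻¹) z := by
    have h2 : HasDerivAt (fun w : ℂ => w / z) (z⁻¹) z := by
      simpa using (hasDerivAt_id z).div_const z
    have h3 := h2.clog (by rw [div_self hz]; simp)
    simpa [div_self hz] using h3
  have h4 : HasFDerivAt (fun w : ℂ => log (w / z)) ((z⁻¹ : ℂ) • (ContinuousLinearMap.id ℝ ℂ)) z := by
    have := h1.hasFDerivAt.restrictScalars ℝ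
    refine this.congr_fderiv ?_
    ext
    simp [mul_comm]
  exact Complex.imCLM.hasFDerivAt.comp z h4

theorem angs_hasFDerivAt {n : ℕ} (B : Matrix (Fin n) (Fin n) ℤ) (z : Fin n → ℂ)
    (hz : ∀ k, z k ≠ 0) (j : Fin n) :
    ∃ L : (Fin n → ℂ) →L[ℝ] ℝ, HasFDerivAt (fun w => angs B z w j) L z ∧
      ∀ v, L v = ∑ k, (B j k : ℝ) * ((z k)⁻¹ * v k).im := by
  have h1 : ∀ k, HasFDerivAt (fun w : Fin n → ℂ => (log (w k / z k)).im)
      ((Complex.imCLM.comp ((z k)⁻¹ • (ContinuousLinearMap.id ℝ ℂ))).comp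
        (ContinuousLinearMap.proj (R := ℝ) k)) z := by
    intro k
    exact HasFDerivAt.comp (g := fun w : ℂ => (log (w / z k)).im) (f := fun w : Fin n → ℂ => w k) z
      (arg_hasFDerivAt (z k) (hz k)) (hasFDerivAt_apply k z)
  have h2 := HasFDerivAt.fun_sum (u := Finset.univ) fun k _ => (h1 k).const_mul (B j k : ℝ)
  refine ⟨_, h2, ?_⟩
  intro v
  simp

theorem actn_hasFDerivAt {n : ℕ} (A : Matrix (Fin n) (Fin n) ℤ) (v : Fin n → ℝ) (z : Fin n → ℂ)
    (j : Fin n) :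
    ∃ L : (Fin n → ℂ) →L[ℝ] ℝ, HasFDerivAt (fun w => actn A v w j) L z ∧
      ∀ u, L u = 2 * Real.pi * ∑ k, (A j k : ℝ) * ((z k).re * (u k).re + (z k).im * (u k).im) := by
  have h1 : ∀ k, HasFDerivAt (fun w : Fin n → ℂ => normSq (w k))
      (((2 * (z k).re) • Complex.reCLM + (2 * (z k).im) • Complex.imCLM).comp
        (ContinuousLinearMap.proj (R := ℝ) k)) z := by
    intro k
    exact HasFDerivAt.comp (g := fun w : ℂ => normSq w) (f := fun w : Fin n → ℂ => w k) z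
      (normSq_hasFDerivAt (z k)) (hasFDerivAt_apply k z)
  have h2 := HasFDerivAt.fun_sum (u := Finset.univ) fun k _ =>
    ((h1 k).const_mul Real.pi).const_mul (A j k : ℝ)
  refine ⟨_, h2.add_const (v j), ?_⟩
  intro u
  simp [Finset.mul_sum]
  refine Finset.sum_congr rfl fun k _ => ?_
  ring

/-- The set on which `Psi` is well-behaved. -/
def good {n : ℕ} (A : Matrix (Fin n) (Fin n) ℤ) (v : Fin n → ℝ) : Set (Fin n → ℂ) :=
  {z | (∀ k, z k ≠ 0) ∧ ∀ j, 0 < actn A v z j}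

theorem good_nonzero_open {n : ℕ} : IsOpen {z : Fin n → ℂ | ∀ k, z k ≠ 0} := by
  have : {z : Fin n → ℂ | ∀ k, z k ≠ 0} = ⋂ k, {z : Fin n → ℂ | z k ≠ 0} := by
    ext z; simp
  rw [this]
  exact isOpen_iInter_of_finite fun k => isOpen_ne_fun (continuous_apply k) continuous_const

theorem actn_contDiff {n : ℕ} (A : Matrix (Fin n) (Fin n) ℤ) (v : Fin n → ℝ) (j : Fin n) :
    ContDiff ℝ ∞ (fun z => actn A v z j) := by
  unfold actn
  refine (ContDiff.sum fun k _ => ?_).add contDiff_const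
  exact contDiff_const.mul (contDiff_const.mul (normSq_contDiff.comp
    (ContinuousLinearMap.proj (R := ℝ) k : (Fin n → ℂ) →L[ℝ] ℂ).contDiff))

theorem good_isOpen {n : ℕ} (A : Matrix (Fin n) (Fin n) ℤ) (v : Fin n → ℝ) :
    IsOpen (good A v) := by
  have : good A v = {z : Fin n → ℂ | ∀ k, z k ≠ 0} ∩ ⋂ j, {z | 0 < actn A v z j} := by
    ext z; simp [good]
  rw [this]
  refine good_nonzero_open.inter (isOpen_iInter_of_finite fun j => ?_)
  exact isOpen_lt continuous_const (actn_contDiff A v j).continuous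

theorem angs_contDiffAt {n : ℕ} (B : Matrix (Fin n) (Fin n) ℤ) (z : Fin n → ℂ)
    (hz : ∀ k, z k ≠ 0) (j : Fin n) : ContDiffAt ℝ ∞ (fun w => angs B z w j) z := by
  unfold angs
  refine ContDiffAt.sum fun k _ => contDiffAt_const.mul ?_
  have h1 : ContDiffAt ℝ ∞ (fun w : ℂ => log (w / z k)) (z k) := by
    have h2 : ContDiffAt ℝ ∞ (fun w : ℂ => w / z k) (z k) := contDiffAt_id.div_const _
    have h3 : ContDiffAt ℝ ∞ log ((fun w : ℂ => w / z k) (z k)) := by
      refine (Complex.contDiffAt_log ?_).restrict_scalars ℝ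
      show z k / z k ∈ slitPlane
      rw [div_self (hz k)]; simp
    exact ContDiffAt.comp (g := log) (f := fun w : ℂ => w / z k) (z k) h3 h2
  have h4 : ContDiffAt ℝ ∞ (fun w : ℂ => (log (w / z k)).im) (z k) :=
    Complex.imCLM.contDiff.contDiffAt.comp (z k) h1
  exact ContDiffAt.comp (g := fun w : ℂ => (log (w / z k)).im) (f := fun w : Fin n → ℂ => w k) z h4
    (contDiff_apply ℝ ℂ k).contDiffAt

theorem Psi_contDiffAt {n : ℕ} (A B : Matrix (Fin n) (Fin n) ℤ) (v : Fin n → ℝ) (z : Fin n → ℂ)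
    (hz : z ∈ good A v) : ContDiffAt ℝ ∞ (Psi A B v) z := by
  rw [contDiffAt_pi]
  intro j
  have h1 : (fun w => Psi A B v w j) =ᶠ[nhds z] fun w => (∏ k, (z k / ‖z k‖) ^ (B j k)) *
      (((Real.sqrt (actn A v w j / Real.pi) : ℝ) : ℂ) * exp ((angs B z w j : ℂ) * I)) := by
    filter_upwards [(good_isOpen A v).mem_nhds hz] with w hw
    exact Psi_eq A B v w z hw.1 hz.1 j
  refine ContDiffAt.congr_of_eventuallyEq ?_ h1
  refine contDiffAt_const.mul (ContDiffAt.mul ?_ ?_)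
  · refine Complex.ofRealCLM.contDiff.contDiffAt.comp z ?_
    refine ContDiffAt.sqrt ((actn_contDiff A v j).contDiffAt.div_const _) ?_
    have := hz.2 j
    positivity
  · refine Complex.contDiff_exp.contDiffAt.comp z ?_
    refine ContDiffAt.mul ?_ contDiffAt_const
    exact Complex.ofRealCLM.contDiff.contDiffAt.comp z (angs_contDiffAt B z hz.1 j)

theorem Psi_fderiv {n : ℕ} (A B : Matrix (Fin n) (Fin n) ℤ) (v : Fin n → ℝ) (z : Fin n → ℂ)
    (hz : z ∈ good A v) (j : Fin n) (u : Fin n → ℂ) :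
    fderiv ℝ (Psi A B v) z u j = (∏ k, (z k / ‖z k‖) ^ (B j k)) *
      ((((∑ k, (A j k : ℝ) * ((z k).re * (u k).re + (z k).im * (u k).im)) /
        Real.sqrt (actn A v z j / Real.pi) : ℝ) : ℂ) +
      ((Real.sqrt (actn A v z j / Real.pi) *
        (∑ k, (B j k : ℝ) * ((z k)⁻¹ * u k).im) : ℝ) : ℂ) * I) := by
  obtain ⟨L1, hL1, hL1'⟩ := actn_hasFDerivAt A v z j
  obtain ⟨L2, hL2, hL2'⟩ := angs_hasFDerivAt B z hz.1 j
  have hpos : 0 < actn A v z j / Real.pi := div_pos (hz.2 j) Real.pi_pos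
  have h1 : (fun w => Psi A B v w j) =ᶠ[nhds z] fun w => (∏ k, (z k / ‖z k‖) ^ (B j k)) *
      (((Real.sqrt (actn A v w j / Real.pi) : ℝ) : ℂ) * exp ((angs B z w j : ℂ) * I)) := by
    filter_upwards [(good_isOpen A v).mem_nhds hz] with w hw
    exact Psi_eq A B v w z hw.1 hz.1 j
  have hd : DifferentiableAt ℝ (Psi A B v) z :=
    (Psi_contDiffAt A B v z hz).differentiableAt (by simp)
  have h2 : fderiv ℝ (Psi A B v) z u j = fderiv ℝ (fun w => Psi A B v w j) z u := by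
    have := (hasFDerivAt_pi'.1 hd.hasFDerivAt) j
    rw [this.fderiv]
    rfl
  rw [h2, h1.fderiv_eq]
  have h3 : HasFDerivAt (fun w => actn A v w j / Real.pi) (Real.pi⁻¹ • L1) z := by
    simpa [div_eq_mul_inv] using hL1.mul_const Real.pi⁻¹
  have h4 := h3.sqrt hpos.ne'
  have h5 := HasFDerivAt.comp (g := fun x : ℝ => (x : ℂ))
    (f := fun w => Real.sqrt (actn A v w j / Real.pi)) z Complex.ofRealCLM.hasFDerivAt h4
  have h6 := HasFDerivAt.comp (g := fun x : ℝ => (x : ℂ))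
    (f := fun w => angs B z w j) z Complex.ofRealCLM.hasFDerivAt hL2
  have h7 := (h6.mul_const I).cexp
  have h8 := (h5.mul h7).const_mul (∏ k, (z k / ‖z k‖) ^ (B j k))
  have h9 : angs B z z j = 0 := by
    unfold angs
    refine Finset.sum_eq_zero fun k _ => ?_
    rw [div_self (hz.1 k)]
    simp
  have h10 : HasFDerivAt (fun w => (∏ k, (z k / ‖z k‖) ^ (B j k)) *
      (((Real.sqrt (actn A v w j / Real.pi) : ℝ) : ℂ) * exp ((angs B z w j : ℂ) * I))) _ z := h8
  rw [h10.fderiv]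
  have hs : ((Real.sqrt (actn A v z j / Real.pi) : ℝ) : ℂ) ≠ 0 := by
    rw [Complex.ofReal_ne_zero]
    exact (Real.sqrt_pos.2 hpos).ne'
  have hpi : (Real.pi : ℂ) ≠ 0 := by
    rw [Complex.ofReal_ne_zero]
    exact Real.pi_ne_zero
  simp only [add_apply, smul_apply, Function.comp, h9, Complex.ofReal_zero, zero_mul,
    Complex.exp_zero,
    ContinuousLinearMap.comp_apply, Complex.ofRealCLM_apply, hL1', hL2', smul_eq_mul]
  push_cast
  generalize (∑ k, (A j k : ℂ) * (((z k).re : ℂ) * ((u k).re : ℂ) + ((z k).im : ℂ) * ((u k).im : ℂ))) = α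
  generalize (∑ k, (B j k : ℂ) * ((((z k)⁻¹ * u k).im : ℝ) : ℂ)) = β
  field_simp
  ring


theorem norm_unit_prod {n : ℕ} (B : Matrix (Fin n) (Fin n) ℤ) (z : Fin n → ℂ)
    (hz : ∀ k, z k ≠ 0) (j : Fin n) : ‖∏ k, (z k / ‖z k‖) ^ (B j k)‖ = 1 := by
  rw [norm_prod]
  refine Finset.prod_eq_one fun k _ => ?_
  rw [norm_zpow, norm_div, Complex.norm_real, norm_norm, div_self (by simpa using hz k), one_zpow]

theorem om1_eq (c : ℂ) (hc : ‖c‖ = 1) (p q p' q' : ℝ) :
    om1 (c * ((p : ℂ) + (q : ℂ) * I)) (c * ((p' : ℂ) + (q' : ℂ) * I)) = p * q' - q * p' := by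
  rw [om1_rot, Complex.normSq_eq_norm_sq, hc]
  unfold om1
  simp

theorem om1_pair (z u w : ℂ) (hz : z ≠ 0) :
    (z.re * u.re + z.im * u.im) * (z⁻¹ * w).im - (z⁻¹ * u).im * (z.re * w.re + z.im * w.im) =
      om1 u w := by
  have h : normSq z ≠ 0 := by simpa using hz
  unfold om1
  simp only [Complex.mul_im, Complex.inv_re, Complex.inv_im]
  field_simp
  rw [Complex.normSq_apply]
  ring

theorem dot_inv {n : ℕ} (A B : Matrix (Fin n) (Fin n) ℤ) (hAB : A.transpose * B = 1)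
    (a t : Fin n → ℝ) :
    ∑ j, (∑ k, (A j k : ℝ) * a k) * (∑ k, (B j k : ℝ) * t k) = ∑ k, a k * t k := by
  have h1 : ∀ k l, ∑ j, (A j k : ℝ) * (B j l : ℝ) = if k = l then 1 else 0 := by
    intro k l
    have h2 := congrFun (congrFun hAB k) l
    rw [Matrix.mul_apply, Matrix.one_apply] at h2
    simp only [Matrix.transpose_apply] at h2
    exact_mod_cast h2
  calc ∑ j, (∑ k, (A j k : ℝ) * a k) * (∑ l, (B j l : ℝ) * t l)
      = ∑ j, ∑ k, ∑ l, (a k * t l) * ((A j k : ℝ) * (B j l : ℝ)) := by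
        refine Finset.sum_congr rfl fun j _ => ?_
        rw [Finset.sum_mul_sum]
        refine Finset.sum_congr rfl fun k _ => Finset.sum_congr rfl fun l _ => ?_
        ring
    _ = ∑ k, ∑ l, (a k * t l) * ∑ j, (A j k : ℝ) * (B j l : ℝ) := by
        rw [Finset.sum_comm]
        refine Finset.sum_congr rfl fun k _ => ?_
        rw [Finset.sum_comm]
        refine Finset.sum_congr rfl fun l _ => ?_
        rw [Finset.mul_sum]
    _ = ∑ k, a k * t k := by
        refine Finset.sum_congr rfl fun k _ => ?_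
        simp [h1]

theorem Psi_sympl {n : ℕ} (A B : Matrix (Fin n) (Fin n) ℤ) (hAB : A.transpose * B = 1)
    (v : Fin n → ℝ) (z : Fin n → ℂ) (hz : z ∈ good A v) (u w : Fin n → ℂ) :
    omega (fderiv ℝ (Psi A B v) z u) (fderiv ℝ (Psi A B v) z w) = omega u w := by
  have h1 : omega (fderiv ℝ (Psi A B v) z u) (fderiv ℝ (Psi A B v) z w) =
      ∑ j, om1 (fderiv ℝ (Psi A B v) z u j) (fderiv ℝ (Psi A B v) z w j) := rfl
  have h2 : omega u w = ∑ j, om1 (u j) (w j) := rfl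
  have h3 : ∀ j, om1 (fderiv ℝ (Psi A B v) z u j) (fderiv ℝ (Psi A B v) z w j) =
      (∑ k, (A j k : ℝ) * ((z k).re * (u k).re + (z k).im * (u k).im)) *
        (∑ k, (B j k : ℝ) * ((z k)⁻¹ * w k).im) -
      (∑ k, (A j k : ℝ) * ((z k).re * (w k).re + (z k).im * (w k).im)) *
        (∑ k, (B j k : ℝ) * ((z k)⁻¹ * u k).im) := by
    intro j
    rw [Psi_fderiv A B v z hz, Psi_fderiv A B v z hz, om1_eq _ (norm_unit_prod B z hz.1 j)]
    have hs : Real.sqrt (actn A v z j / Real.pi) ≠ 0 :=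
      (Real.sqrt_pos.2 (div_pos (hz.2 j) Real.pi_pos)).ne'
    field_simp
  rw [h1, h2]
  simp_rw [h3]
  rw [Finset.sum_sub_distrib, dot_inv A B hAB, dot_inv A B hAB, ← Finset.sum_sub_distrib]
  refine Finset.sum_congr rfl fun k _ => ?_
  rw [← om1_pair (z k) (u k) (w k) (hz.1 k)]
  ring


theorem Psi_norm_sq {n : ℕ} (A B : Matrix (Fin n) (Fin n) ℤ) (v : Fin n → ℝ) (z : Fin n → ℂ)
    (hz : z ∈ good A v) (j : Fin n) : Real.pi * ‖Psi A B v z j‖ ^ 2 = actn A v z j := by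
  unfold Psi
  rw [norm_mul, norm_unit_prod B z hz.1 j, mul_one, Complex.norm_real,
    Real.norm_of_nonneg (Real.sqrt_nonneg _), Real.sq_sqrt (div_pos (hz.2 j) Real.pi_pos).le]
  field_simp

theorem prod_zpow_eq {ι : Type*} (s : Finset ι) (a : ℂ) (ha : a ≠ 0) (f : ι → ℤ) :
    ∏ x ∈ s, a ^ (f x) = a ^ (∑ x ∈ s, f x) := by
  classical
  induction s using Finset.induction_on with
  | empty => simp
  | insert x s hx ih => rw [Finset.prod_insert hx, Finset.sum_insert hx, zpow_add₀ ha, ih]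

theorem unit_recover {n : ℕ} (A B : Matrix (Fin n) (Fin n) ℤ) (hAB : A.transpose * B = 1)
    (u : Fin n → ℂ) (hu : ∀ k, u k ≠ 0) (l : Fin n) :
    ∏ j, (∏ k, u k ^ (B j k)) ^ (A j l) = u l := by
  have h1 : ∀ k l, ∑ j, (B j k) * (A j l) = if k = l then 1 else 0 := by
    intro k l
    have h2 := congrFun (congrFun hAB l) k
    rw [Matrix.mul_apply, Matrix.one_apply] at h2
    simp only [Matrix.transpose_apply] at h2
    rw [← Finset.sum_congr rfl fun j _ => mul_comm (A j l) (B j k), h2]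
    simp only [eq_comm]
  calc ∏ j, (∏ k, u k ^ (B j k)) ^ (A j l) = ∏ j, ∏ k, u k ^ (B j k * A j l) := by
        refine Finset.prod_congr rfl fun j _ => ?_
        rw [← Finset.prod_zpow]
        refine Finset.prod_congr rfl fun k _ => ?_
        rw [zpow_mul]
    _ = ∏ k, u k ^ (∑ j, B j k * A j l) := by
        rw [Finset.prod_comm]
        refine Finset.prod_congr rfl fun k _ => ?_
        exact prod_zpow_eq _ _ (hu k) _
    _ = u l := by
        simp_rw [h1]
        rw [Finset.prod_eq_single l]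
        · simp
        · intro k _ hk
          simp [hk]
        · simp

theorem Psi_injOn {n : ℕ} (A B : Matrix (Fin n) (Fin n) ℤ) (hAB : A.transpose * B = 1)
    (v : Fin n → ℝ) : Set.InjOn (Psi A B v) (good A v) := by
  intro z hz z' hz' h
  have hx : ∀ j, ∑ k, (A j k : ℝ) * (Real.pi * normSq (z k)) =
      ∑ k, (A j k : ℝ) * (Real.pi * normSq (z' k)) := by
    intro j
    have h1 := Psi_norm_sq A B v z hz j
    rw [h, Psi_norm_sq A B v z' hz' j] at h1
    unfold actn at h1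
    linarith
  have hA : ∀ a a' : Fin n → ℝ, (∀ j, ∑ k, (A j k : ℝ) * a k = ∑ k, (A j k : ℝ) * a' k) →
      a = a' := by
    intro a a' haa
    funext l
    have h1 := dot_inv A B hAB a (fun k => if k = l then 1 else 0)
    have h2 := dot_inv A B hAB a' (fun k => if k = l then 1 else 0)
    simp only [haa] at h1
    rw [h1] at h2
    simpa using h2
  have hn : ∀ l, normSq (z l) = normSq (z' l) := by
    intro l
    have := congrFun (hA _ _ hx) l
    simpa [Real.pi_ne_zero] using this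
  have hn' : ∀ l, ‖z l‖ = ‖z' l‖ := by
    intro l
    have := hn l
    rw [Complex.normSq_eq_norm_sq, Complex.normSq_eq_norm_sq] at this
    exact (sq_eq_sq₀ (norm_nonneg _) (norm_nonneg _)).1 this
  have hu : ∀ j, ∏ k, (z k / ‖z k‖) ^ (B j k) = ∏ k, (z' k / ‖z' k‖) ^ (B j k) := by
    intro j
    have h1 := congrFun h j
    unfold Psi at h1
    have h2 : actn A v z j = actn A v z' j := by
      unfold actn
      rw [hx j]
    rw [h2] at h1
    refine mul_left_cancel₀ ?_ h1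
    rw [Complex.ofReal_ne_zero]
    exact (Real.sqrt_pos.2 (div_pos (hz'.2 j) Real.pi_pos)).ne'
  funext l
  have h1 := unit_recover A B hAB (fun k => z k / ‖z k‖)
    (fun k => div_ne_zero (hz.1 k) (by simpa using hz.1 k)) l
  have h2 := unit_recover A B hAB (fun k => z' k / ‖z' k‖)
    (fun k => div_ne_zero (hz'.1 k) (by simpa using hz'.1 k)) l
  simp only [hu] at h1
  rw [h1, ← hn' l] at h2
  have h3 : ((‖z l‖ : ℝ) : ℂ) ≠ 0 := by simpa using hz.1 l
  field_simp at h2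
  exact h2

end Vale.Agent.P209
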